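import Vale.Agent.P241.H891.CycBlue
import Vale.Agent.P241.H14.SubQuot
import Vale.Agent.P241.H486.Fix

/-!
# P241, block UB: the cyclic case

`cyclicCase` : `H14.CyclicCase S p` from `F1Stmt` (UB-4, equivariant topology) and `F4Stmt` (UB-7,
the passage from `H125.Blue` to Morava `K`-theories).
-/

open CategoryTheory MonoidalCategory Limits Pretriangulated MonObj
open Vale.Agent.P251.St Vale.Agent.P251.St.SHCat Vale.Agent.P241.St Vale.Agent.P241.Final
open Vale.Agent.P251.I Vale.Agent.P251.T Vale.Agent.P251.M Vale.Agent.P251.S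

set_option linter.unusedSectionVars false

noncomputable section

namespace Vale.Agent.P241.H891

variable {T : SHCat} {S : Susp T}

theorem acyclic_of_isZero {E W : T.C} (h : IsZero (E ⊗ W)) : Vale.Agent.P251.St.Acyclic E W :=
  (IsZero.iff_id_eq_zero _).1 h

/-- the underlying space is the space of fixed points of the trivial group -/
def undHomeo {C : Type} [Group C] (Y : GSpace C) (H : Subgroup C) (hH : H = ⊥) :
    (Y.fix H).carrier ≃ₜ Y.und.carrier where
  toFun x := x.1
  invFun x := ⟨x, fun h => by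
    subst hH
    have h1 : (h : C) = 1 := Subgroup.mem_bot.1 h.2
    change (h : C) • x = x
    rw [h1, one_smul]⟩
  left_inv x := rfl
  right_inv x := rfl
  continuous_toFun := continuous_subtype_val
  continuous_invFun := continuous_id.subtype_mk _

/-- the passage from `Blue` to Morava `K`-theories -/
def F4Stmt (X : Ctx S) (p : ℕ) : Prop :=
  ∀ K : ℕ → RingA T, (∀ i, IsMoravaK S p i (K i)) → ∀ (n : ℕ) (Z Y : Space),
    Vale.Agent.P251.St.FC Z → Vale.Agent.P251.St.FC Y →
    H125.Blue (P := X.D.P) (X.D.vs p) n (S.obj Z) (S.obj Y) →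
    Vale.Agent.P251.St.Acyclic (K (n + 1)).obj (S.obj Z) →
    Vale.Agent.P251.St.Acyclic (K n).obj (S.obj Y)

/-- **The cyclic case of the upper bound.** -/
theorem cyclicCase (X : Ctx S) {p : ℕ} [Fact p.Prime] (h1 : F1Stmt X) (h4 : F4Stmt X p) :
    H14.CyclicCase S p := by
  intro K hK C _ _ _ hC n Y hY hac
  have fU : Vale.Agent.P251.St.FC Y.und := H486.fc_und hY
  have fT : Vale.Agent.P251.St.FC (Y.fix ⊤) := H486.fixFC _ Y hY ⊤
  have fB : Vale.Agent.P251.St.FC (Y.fix ⊥) := H486.fixFC _ Y hY ⊥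
  refine h4 K hK n Y.und (Y.fix ⊤) fU fT ?_
    (H14.acyclic_of_homeo S fB fU (undHomeo Y ⊥ rfl) hac)
  refine blue_cyclic X h1 C hC Y hY n fun N hcard hN => ?_
  have htop : (⊤ : Subgroup C) = ⊥ := by
    have : Subsingleton C := (Nat.card_eq_one_iff_unique.1 hcard).1
    exact Subsingleton.elim _ _
  exact isZero_of_acyclic (H14.acyclic_of_homeo S fU fT (undHomeo Y ⊤ htop).symm
    (acyclic_of_isZero hN))

/-- **The upper bound.** -/
theorem upperBound (X : Ctx S) {p : ℕ} [Fact p.Prime] (h1 : F1Stmt X) (h4 : F4Stmt X p) :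
    UpperBound S p :=
  H14.upperBound_of_cyclic (cyclicCase X h1 h4)

end Vale.Agent.P241.H891
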