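import Vale.Agent.P241.H891.Van
import Vale.Agent.P241.H891.Cyclic
import Vale.Agent.P241.H14.EPow

/-!
# P241, block UB: `F1Stmt` from the vanishing of the zero section

`G3Stmt X` : for a finite `C`-cell space `Y` there is `d` such that, for `N ⊗ Y = 0`, the zero
section of the sum of `d` copies of the line bundle `lensLine q I j` over the lens space is killed
by `N ⊗ Y^C`.
-/

open CategoryTheory MonoidalCategory Limits Pretriangulated MonObj
open Vale.Agent.P251.St Vale.Agent.P251.St.SHCat Vale.Agent.P241.St Vale.Agent.P241.Final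
open Vale.Agent.P251.G Vale.Agent.P251.G.LC Vale.Agent.P251.I Vale.Agent.P251.T
open Vale.Agent.P251.M Vale.Agent.P251.S Vale.Agent.P251.F Vale.Agent.P251.M.EvenSpheres
open Vale.Agent.P241.H588 Vale.Agent.P241.H14

set_option linter.unusedSectionVars false
set_option linter.style.haveILetI false

noncomputable section

namespace Vale.Agent.P241.H891

variable {T : SHCat} {S : Susp T}

/-- The zero section of the sum of `d` copies of `lensLine q I j` is killed by `N ⊗ Y^C`. -/
def G3Stmt (S : Susp T) : Prop :=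
  ∀ (C : Type) [Group C] [Finite C] (lam : C →* Circle), Function.Injective lam →
    ∀ q j : ℕ, q ≠ 0 → Nat.card C = q →
      (∀ H : Subgroup C, H ≠ ⊤ → ∀ g ∈ H, lam g ^ j = 1) →
    ∀ Y : GSpace C, GFC C Y → ∃ d : ℕ, ∀ N : T.C, IsZero (N ⊗ S.obj Y.und) →
      ∀ (I : Type) [Fintype I] (fL : FCP (LC.of (Lens q I)))
        (fT : FCP (Bun.tot (X := (LC.of (Lens q I) : LC)) (copies d (lensLine q I j)))),
        N ◁ (S.toSpaceFunctor.S.map (FCat.hom (X := ⟨LC.of (Lens q I), fL⟩)
          (Y := ⟨Bun.tot (X := (LC.of (Lens q I) : LC)) (copies d (lensLine q I j)), fT⟩)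
          (Vale.Agent.P251.Q.zeroMor (Z := (LC.of (Lens q I) : LC))
            (copies d (lensLine q I j)))) ▷ S.obj (Y.fix ⊤)) = 0

/-- **The last step of UB-4.** -/
theorem f1_of_g3 (X : Ctx S) (h : G3Stmt S) : F1Stmt X := by
  intro C _ _ lam hl q j hq hC hj Y hY
  obtain ⟨d, hd⟩ := h C lam hl q j hq hC hj Y hY
  refine ⟨d, fun P N _ _ M A hN o m I _ => ?_⟩
  rw [mapAlg_lens_pow]
  have hB : Vale.Agent.P251.Q.GoodBase
    (thK X.e (Sqz (ihomMod A (M.tensorRight (S.obj (Y.fix ⊤)))))) (LC.of (Lens q I)) := inferInstance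
  have hG := hB.tot _ (isRank_copies d (isRank_lensLine q I j))
  have hG0 : Vale.Agent.P251.Q.MultTheory.Good
    (thK X.e (Sqz (ihomMod A (M.tensorRight (S.obj (Y.fix ⊤)))))) (LC.of (Lens q I)) := inferInstance
  exact map_smul_ihom X.e M A (S.obj (Y.fix ⊤))
    (FCat.hom (X := ⟨LC.of (Lens q I), hG0.out⟩)
      (Y := ⟨Bun.tot (X := (LC.of (Lens q I) : LC)) (copies d (lensLine q I j)), hG.out⟩)
      (Vale.Agent.P251.Q.zeroMor (Z := (LC.of (Lens q I) : LC)) (copies d (lensLine q I j))))
    (hd N hN I hG0.out hG.out) m _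

end Vale.Agent.P241.H891
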