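import Vale.Agent.P241.H891.Conv
import Mathlib.RingTheory.Nilpotent.Basic

/-!
# P241, block F (upper bound): the algebra (F2), (F3)

`M` is a module over `R` (in the application `π_*(R_Q ⊗ Y)` over `π_* MU`) on which the ideal `I`
and the element `v` act nilpotently and `w` acts bijectively; `J = I + (v)`.
`P = [p^k](y)`, `α = [p^(k-1)](y)`, `β = α ^ q`.

`main` : if `α ^ m₁` acts as zero on `M[[y]] / (P)` then `v ^ (m₁ e) = 0` on `M`, where `I ^ e = 0`
on `M`; the nilpotence exponent of `v` plays no role.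
-/

open Finset PowerSeries

namespace Vale.Agent.P241.H891

variable {R M : Type*} [CommRing R] [AddCommGroup M] [Module R M]

/-- the coefficients of `f` and `f'` are congruent modulo `J` -/
def CMod (J : Ideal R) (f f' : R⟦X⟧) : Prop := ∀ i, coeff i f - coeff i f' ∈ J

theorem CMod.conv_eq {J : Ideal R} {f f' : R⟦X⟧} (h : CMod J f f') {g : ℕ → M}
    (hg : ∀ a ∈ J, ∀ j, a • g j = 0) : conv f g = conv f' g :=
  conv_congr fun i j => hg _ (h i) j

/-- `g` is in `P M[[y]]` -/
def InP (P : R⟦X⟧) (g : ℕ → M) : Prop := ∃ g', conv P g' = g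

theorem InP.add {P : R⟦X⟧} {g h : ℕ → M} (hg : InP P g) (hh : InP P h) : InP P (g + h) := by
  obtain ⟨a, rfl⟩ := hg
  obtain ⟨b, rfl⟩ := hh
  exact ⟨a + b, conv_add _ _ _⟩

theorem InP.neg {P : R⟦X⟧} {g : ℕ → M} (hg : InP P g) : InP P (-g) := by
  obtain ⟨a, rfl⟩ := hg
  exact ⟨-a, conv_neg _ _⟩

theorem InP.sub {P : R⟦X⟧} {g h : ℕ → M} (hg : InP P g) (hh : InP P h) : InP P (g - h) := by
  rw [sub_eq_add_neg]
  exact hg.add hh.neg

theorem InP.conv {P : R⟦X⟧} {g : ℕ → M} (f : R⟦X⟧) (hg : InP P g) : InP P (conv f g) := by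
  obtain ⟨a, rfl⟩ := hg
  refine ⟨H891.conv f a, ?_⟩
  rw [← conv_mul, ← conv_mul, mul_comm]

theorem InP.smul {P : R⟦X⟧} {g : ℕ → M} (a : R) (hg : InP P g) : InP P (a • g) := by
  obtain ⟨b, rfl⟩ := hg
  exact ⟨a • b, conv_smul _ _ _⟩

section

variable (M)

/-- the ideal `J` acts nilpotently on `M` -/
def Nil (J : Ideal R) : Prop := ∃ s : ℕ, ∀ a ∈ J ^ s, ∀ m : M, a • m = 0

variable {M}

theorem nil_sup {I : Ideal R} {v : R} (hI : Nil M I) (hv : ∃ t : ℕ, ∀ m : M, v ^ t • m = 0) :
    Nil M (I ⊔ Ideal.span {v}) := by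
  obtain ⟨e, he⟩ := hI
  obtain ⟨t, ht⟩ := hv
  refine ⟨e + t, fun a ha m => ?_⟩
  have h1 : (I ⊔ Ideal.span {v}) ^ (e + t) ≤ I ^ e ⊔ Ideal.span {v} ^ t := by
    exact Ideal.sup_pow_add_le_pow_sup_pow
  have h2 := h1 ha
  rw [Ideal.span_singleton_pow, Submodule.mem_sup] at h2
  obtain ⟨b, hb, c, hc, rfl⟩ := h2
  obtain ⟨d, rfl⟩ := Ideal.mem_span_singleton'.mp hc
  rw [add_smul, he b hb, mul_smul, ht, smul_zero, add_zero]

/-- an element congruent modulo `J` to one which acts bijectively acts bijectively -/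
theorem bijective_of_nil {J : Ideal R} (hJ : Nil M J) {a b : R} (hab : a - b ∈ J)
    (hb : Function.Bijective fun m : M => b • m) : Function.Bijective fun m : M => a • m := by
  obtain ⟨s, hs⟩ := hJ
  -- work in the endomorphism ring
  let φ : R →+* Module.End R M := Module.toModuleEnd R (S := R) M
  have hφ : ∀ (r : R) (m : M), φ r m = r • m := fun r m => rfl
  have hbu : IsUnit (φ b) := by
    rw [Module.End.isUnit_iff]
    exact hb
  have hn : IsNilpotent (φ (a - b)) := by
    refine ⟨s, ?_⟩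
    rw [← map_pow]
    ext m
    exact hs _ (Ideal.pow_mem_pow hab s) m
  have hc : Commute (φ (a - b)) (φ b) := (Commute.all (a - b) b).map φ
  have h1 : IsUnit (φ (a - b) + φ b) := hn.isUnit_add_right_of_commute hbu hc
  rw [← map_add, sub_add_cancel, Module.End.isUnit_iff] at h1
  exact h1

end

variable {J : Ideal R} {P θ : R⟦X⟧} {D : ℕ}

/-- If `J g = 0` then `P g = y ^ D θ g`. -/
theorem conv_P_of_killed (hP : CMod J P (X ^ D * θ)) {g : ℕ → M}
    (hg : ∀ a ∈ J, ∀ j, a • g j = 0) :
    conv P g = conv ((X : R⟦X⟧) ^ D) (conv θ g) := by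
  rw [hP.conv_eq hg, conv_mul]

theorem conv_X_pow_eq_zero {D : ℕ} {g : ℕ → M} (h : conv ((X : R⟦X⟧) ^ D) g = 0) : g = 0 := by
  funext n
  have := congrFun h (n + D)
  rw [conv_X_pow, if_pos (Nat.le_add_left _ _), Nat.add_sub_cancel] at this
  exact this

/-- `J ^ s g = 0` -/
def Kill (J : Ideal R) (s : ℕ) (g : ℕ → M) : Prop := ∀ a ∈ J ^ s, ∀ j, a • g j = 0

/-- (F3), the claim: if `J u = 0` and `β u ∈ P M[[y]]` then `u = 0`. -/
theorem claim (hJ : Nil M J) (hP : CMod J P (X ^ D * θ))
    (hθ : ∀ m : M, coeff 0 θ • m = 0 → m = 0) {β c : R⟦X⟧} {D' : ℕ}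
    (hβ : CMod J β (X ^ D' * c)) (hc : ∀ m : M, coeff 0 c • m = 0 → m = 0) (hD : D' < D)
    {u : M} (hu : ∀ a ∈ J, a • u = 0) (h : InP P (conv β (cst u))) : u = 0 := by
  obtain ⟨g, hg⟩ := h
  -- `J g = 0`
  have hKg : ∀ s, Kill J (s + 1) g → Kill J 1 g := by
    intro s
    induction s with
    | zero => exact id
    | succ s ih =>
      intro hs
      apply ih
      intro a ha j
      have ha1 : a ∈ J := Ideal.pow_le_self (Nat.succ_ne_zero s) ha
      have h1 : conv P (a • g) = 0 := by
        rw [conv_smul, hg, ← conv_smul, smul_cst, hu a ha1, cst_zero, conv_zero]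
      have h2 : ∀ b ∈ J, ∀ j, b • (a • g) j = 0 := by
        intro b hb j
        rw [Pi.smul_apply, smul_smul]
        apply hs
        rw [mul_comm, pow_succ]
        exact Ideal.mul_mem_mul ha hb
      rw [conv_P_of_killed hP h2] at h1
      have h3 := eq_zero_of_conv_eq_zero hθ (conv_X_pow_eq_zero h1)
      exact congrFun h3 j
  obtain ⟨s, hs⟩ := hJ
  have hg1 : Kill J 1 g := by
    rcases s with _ | s
    · intro a _ j
      have := hs 1 (by simp) (a • g j)
      rwa [one_smul] at this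
    · exact hKg s fun a ha j => hs a ha _
  rw [Kill, pow_one] at hg1
  rw [conv_P_of_killed hP hg1] at hg
  have h4 := congrFun hg D'
  rw [conv_X_pow, if_neg (by omega)] at h4
  have hu' : ∀ a ∈ J, ∀ j, a • (cst u : ℕ → M) j = 0 := by
    intro a ha j
    simp only [cst]
    split_ifs
    · exact hu a ha
    · exact smul_zero _
  rw [hβ.conv_eq hu', conv_mul, conv_X_pow, if_pos le_rfl, Nat.sub_self, conv_cst] at h4
  exact hc u h4.symm

/-- (F2): `y ^ (s D) g ∈ P M[[y]]` if `J ^ s g = 0`. -/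
theorem inP_X_pow (hJ : Nil M J) (hP : CMod J P (X ^ D * θ))
    (hθ : Function.Bijective fun m : M => coeff 0 θ • m) (s : ℕ) :
    ∀ g : ℕ → M, Kill J s g → InP P (conv ((X : R⟦X⟧) ^ (s * D)) g) := by
  induction s with
  | zero =>
    intro g hg
    have : g = 0 := by
      funext j
      have := hg 1 (by simp) j
      rwa [one_smul] at this
    rw [this, conv_zero]
    exact ⟨0, conv_zero _⟩
  | succ s ih =>
    intro g hg
    -- the series of the coefficients of `P` from `D` on
    let T : R⟦X⟧ := PowerSeries.mk fun i => coeff (i + D) P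
    have hT0 : coeff 0 T - coeff 0 θ ∈ J := by
      have := hP D
      rw [coeff_X_pow_mul', if_pos le_rfl, Nat.sub_self] at this
      simpa [T] using this
    have hT : Function.Bijective fun m : M => coeff 0 T • m := bijective_of_nil hJ hT0 hθ
    obtain ⟨g', hg'⟩ := exists_conv_eq hT g
    -- `J ^ (s+1) g' = 0`
    have hk : Kill J (s + 1) g' := by
      intro a ha j
      have h1 : conv T (a • g') = 0 := by
        rw [conv_smul, hg']
        funext j
        exact hg a ha j
      exact congrFun (eq_zero_of_conv_eq_zero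
        (fun m hm => hT.1 (a₁ := m) (a₂ := 0) (by simpa using hm)) h1) j
    let r : ℕ → M := conv (P - X ^ D * T) g'
    have hr : Kill J s r := by
      intro a ha j
      change a • conv (P - X ^ D * T) g' j = 0
      have h1 : a • conv (P - X ^ D * T) g' j = conv (P - X ^ D * T) (a • g') j := by
        rw [conv_smul]; rfl
      rw [h1]
      simp only [conv]
      refine sum_eq_zero fun ij _ => ?_
      have h2 : coeff ij.1 (P - X ^ D * T) ∈ J := by
        rw [map_sub, coeff_X_pow_mul']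
        split_ifs with h3
        · have : coeff (ij.1 - D) T = coeff ij.1 P := by
            simp only [T, coeff_mk]
            rw [Nat.sub_add_cancel h3]
          rw [this, sub_self]
          exact J.zero_mem
        · have := hP ij.1
          rwa [coeff_X_pow_mul', if_neg h3] at this
      rw [Pi.smul_apply, smul_smul]
      apply hk
      rw [pow_succ, mul_comm]
      exact Ideal.mul_mem_mul h2 ha
    have h5 : conv ((X : R⟦X⟧) ^ D) g = conv P g' - r := by
      rw [← hg', ← conv_mul]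
      change _ = conv P g' - conv (P - X ^ D * T) g'
      rw [conv_sub_left]
      abel
    have h6 : conv ((X : R⟦X⟧) ^ ((s + 1) * D)) g =
        conv ((X : R⟦X⟧) ^ (s * D)) (conv ((X : R⟦X⟧) ^ D) g) := by
      rw [← conv_mul, ← pow_add, Nat.succ_mul]
    rw [h6, h5, conv_sub]
    exact (InP.conv _ ⟨g', rfl⟩).sub (ih r hr)

/-- the conditions at all finite levels imply the one in `M[[y]]` -/
theorem inP_of_levels (hJ : Nil M J) (hP : CMod J P (X ^ D * θ))
    (hθ : Function.Bijective fun m : M => coeff 0 θ • m) {g : ℕ → M}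
    (h : ∀ N, ∃ g', ∀ n < N, conv P g' n = g n) : InP P g := by
  obtain ⟨s, hs⟩ := hJ
  obtain ⟨g', hg'⟩ := h (s * D)
  have h1 : g = conv P g' +
      conv ((X : R⟦X⟧) ^ (s * D)) (fun n => (g - conv P g') (n + s * D)) := by
    funext n
    rw [Pi.add_apply, conv_X_pow]
    split_ifs with h2
    · rw [Nat.sub_add_cancel h2, Pi.sub_apply]
      abel
    · rw [hg' n (by omega), add_zero]
  rw [h1]
  exact InP.add ⟨g', rfl⟩ (inP_X_pow ⟨s, hs⟩ hP hθ s _ fun a ha j => hs a ha _)

/-- **(F3)**. -/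
theorem main {I : Ideal R} {v : R} {e : ℕ} (he : ∀ a ∈ I ^ e, ∀ m : M, a • m = 0)
    (hv : ∃ t : ℕ, ∀ m : M, v ^ t • m = 0) (hP : CMod (I ⊔ Ideal.span {v}) P (X ^ D * θ))
    (hθ : Function.Bijective fun m : M => coeff 0 θ • m) {α β c h : R⟦X⟧} {D' : ℕ}
    (hβ : CMod (I ⊔ Ideal.span {v}) β (X ^ D' * c))
    (hc : ∀ m : M, coeff 0 c • m = 0 → m = 0) (hD : D' < D)
    (hrel : CMod I P (β * (C v + α * h))) {m₁ : ℕ}
    (hα : ∀ m : M, ∀ N, ∃ g' : ℕ → M, ∀ n < N, conv P g' n = conv (α ^ m₁) (cst m) n) (m : M) :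
    v ^ (m₁ * e) • m = 0 := by
  have hJ : Nil M (I ⊔ Ideal.span {v}) := nil_sup ⟨e, he⟩ hv
  have hα' : ∀ m : M, InP P (conv (α ^ m₁) (cst m)) := fun m => inP_of_levels hJ hP hθ (hα m)
  -- step 1: on the elements killed by `I`
  have step : ∀ m : M, (∀ a ∈ I, a • m = 0) → v ^ m₁ • m = 0 := by
    intro m hm
    have h1 : ∀ j, ∃ g : ℕ → M, InP P g ∧ conv β (v ^ j • cst m) =
        g + conv ((-1) ^ j * (α * h) ^ j * β) (cst m) := by
      intro j
      induction j with
      | zero =>
        refine ⟨0, ⟨0, conv_zero _⟩, ?_⟩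
        rw [pow_zero, one_smul, pow_zero, pow_zero, one_mul, one_mul, zero_add]
      | succ j ih =>
        obtain ⟨g, hg, hj⟩ := ih
        have hPm : conv P (cst m) = conv (β * (C v + α * h)) (cst m) := by
          refine hrel.conv_eq fun a ha j => ?_
          simp only [cst]
          split_ifs
          · exact hm a ha
          · exact smul_zero _
        refine ⟨v • g + conv ((-1) ^ j * (α * h) ^ j) (conv P (cst m)),
          (hg.smul v).add (InP.conv _ ⟨_, rfl⟩), ?_⟩
        have h2 : conv β (v ^ (j + 1) • cst m) = v • conv β (v ^ j • cst m) := by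
          rw [pow_succ, mul_comm, mul_smul, conv_smul]
        rw [h2, hj, smul_add, add_assoc, hPm, ← conv_C v (conv _ (cst m)), ← conv_mul,
          ← conv_mul, ← conv_add_left]
        congr 2
        ring
    obtain ⟨g, hg, hj⟩ := h1 m₁
    have h3 : InP P (conv β (cst (v ^ m₁ • m))) := by
      rw [← smul_cst, hj]
      refine hg.add ?_
      have h4 : (-1) ^ m₁ * (α * h) ^ m₁ * β = ((-1) ^ m₁ * h ^ m₁ * β) * α ^ m₁ := by
        rw [mul_pow]; ring
      rw [h4, conv_mul]
      exact (hα' m).conv _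
    by_contra hne
    -- the last nonzero power of `v`
    obtain ⟨t, ht⟩ := hv
    classical
    have hex : ∃ s, v ^ s • v ^ m₁ • m = 0 := ⟨t, ht _⟩
    have hmin := Nat.find_spec hex
    have hpos : Nat.find hex ≠ 0 := by
      intro h0
      rw [h0, pow_zero, one_smul] at hmin
      exact hne hmin
    obtain ⟨s, hs⟩ := Nat.exists_eq_succ_of_ne_zero hpos
    rw [hs] at hmin
    have hs' : v ^ s • v ^ m₁ • m ≠ 0 := Nat.find_min hex (by omega)
    apply hs'
    refine claim hJ hP (fun m hm => hθ.1 (a₁ := m) (a₂ := 0) (by simpa using hm)) hβ hc hD ?_ ?_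
    · intro a ha
      rw [Submodule.mem_sup] at ha
      obtain ⟨b, hb, d, hd, rfl⟩ := ha
      obtain ⟨x, rfl⟩ := Ideal.mem_span_singleton'.mp hd
      have h5 : v • (v ^ s • v ^ m₁ • m) = 0 := by
        rw [← mul_smul, ← pow_succ']
        exact hmin
      rw [add_smul, mul_smul, h5, smul_zero, add_zero, smul_comm b, smul_comm b, hm b hb,
        smul_zero, smul_zero]
    · rw [← smul_cst, conv_smul]
      exact h3.smul _
  -- step 2: the filtration
  have step2 : ∀ j, ∀ m : M, (∀ a ∈ I ^ j, a • m = 0) → v ^ (m₁ * j) • m = 0 := by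
    intro j
    induction j with
    | zero =>
      intro m hm
      have := hm 1 (by simp)
      rw [one_smul] at this
      rw [this, smul_zero]
    | succ j ih =>
      intro m hm
      have h1 : ∀ a ∈ I ^ j, a • (v ^ m₁ • m) = 0 := by
        intro a ha
        rw [smul_comm]
        refine step _ fun b hb => ?_
        rw [smul_smul]
        apply hm
        rw [pow_succ, mul_comm]
        exact Ideal.mul_mem_mul hb ha
      have h2 := ih _ h1
      rwa [smul_smul, ← pow_add, ← Nat.mul_succ] at h2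
  exact step2 e m fun a ha => he a ha m

end Vale.Agent.P241.H891
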