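import Vale.Agent.P241.H891.GlueAbs
import Vale.Agent.P241.EUL.PIdeal
import Vale.Agent.P241.H926.PSer

/-!
# P241, block UB: the blue shift estimate at the level of rings

`blue_ring` : the estimate for the square zero ideal of the coefficient ring of an oriented theory.
-/

open CategoryTheory MonoidalCategory OnePoint Matrix Topology Finset
open Vale.Agent.P251.G Vale.Agent.P251.G.LC

universe v

set_option linter.unusedSectionVars false
set_option linter.style.haveILetI false

noncomputable section

namespace Vale.Agent.P241.H891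

open Vale.Agent.P251.Q Vale.Agent.P251.Q.MultTheory Vale.Agent.P217 Vale.Agent.P251.F

section alg

variable {R : Type*} [CommRing R]

theorem Ih_pow_smul {M : Type*} [AddCommGroup M] [Module R M] (p : ℕ) (F : Law R)
    (n L : ℕ) (hI : ∀ i < n, ∀ m : M, vv p i F ^ L • m = 0) :
    ∀ a ∈ Ih p n F ^ (n * L + 1), ∀ m : M, a • m = 0 := by
  intro a ha m
  have h0 : Ih p n F = Ideal.span {z | ∃ i < n, z = vv p i F} := by
    unfold Ih
    congr 1
    ext z
    exact exists_congr fun i => and_congr_right fun _ => eq_comm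
  rw [h0] at ha
  have h1 := EUL.span_pow_le (fun i => vv p i F) L n ha
  clear ha
  induction h1 using Submodule.span_induction with
  | mem z hz =>
    obtain ⟨i, hi, rfl⟩ := hz
    exact hI i hi m
  | zero => exact zero_smul _ _
  | add x y _ _ hx hy => rw [add_smul, hx, hy, add_zero]
  | smul a x _ hx => rw [smul_assoc, hx, smul_zero]

/-- the algebraic form -/
theorem blue_alg {M : Type*} [AddCommGroup M] [Module R M] (p : ℕ) [Fact p.Prime]
    (F : Law R) (n k L d : ℕ)
    (hI : ∀ i < n, ∀ m : M, vv p i F ^ L • m = 0)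
    (hv : ∃ t : ℕ, ∀ m : M, vv p n F ^ t • m = 0)
    (hu : Function.Bijective fun m : M => vv p (n + 1) F • m)
    (hα : ∀ m : M, ∀ N, ∃ g' : ℕ → M, ∀ j < N, conv (multSeries F.toFG (p ^ (k + 1))) g' j =
      conv (multSeries F.toFG (p ^ k) ^ d) (cst m) j) (m : M) :
    vv p n F ^ (d * (n * L + 1)) • m = 0 := by
  obtain ⟨g, θ, c, b, b', hg, hθ, hs, hc, hs', hD⟩ := H926.exists_pser p F n k
  have hub : ∀ s, Function.Bijective fun m : M => vv p (n + 1) F ^ s • m := by
    intro s
    induction s with
    | zero =>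
      simp only [pow_zero, one_smul]
      exact Function.bijective_id
    | succ s ih =>
      have : (fun m : M => vv p (n + 1) F ^ (s + 1) • m) =
          (fun m : M => vv p (n + 1) F ^ s • m) ∘ fun m : M => vv p (n + 1) F • m := by
        funext m
        rw [Function.comp_apply, smul_smul, pow_succ]
      rw [this]
      exact ih.comp hu
  refine main (R := R) (M := M) (I := Ih p n F) (v := vv p n F)
    (P := multSeries F.toFG (p ^ (k + 1))) (θ := θ)
    (Ih_pow_smul p F n L hI) hv hθ (hs ▸ hub b)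
    (α := multSeries F.toFG (p ^ k)) hc ?_ hD hg hα m
  intro m hm
  rw [hs'] at hm
  exact (hub _).1 (a₁ := m) (a₂ := 0) (by simpa using hm)

end alg

section theory

variable {E : MultTheory.{v}} (o : Orientation E)
variable {A₀ : Type*} [CommRing A₀] (ρ : E.A →+* A₀) (ι : A₀ →+* E.A) (hι : ∀ a, ρ (ι a) = a)

include hι in
/-- **The blue shift estimate**, ring form. -/
theorem blue_ring (F₀ : Law A₀) (hF : o.law = F₀.map ι) (p : ℕ) [Fact p.Prime] (n k L d : ℕ)
    (hI : ∀ i < n, ∀ m : RingHom.ker ρ, vv p i o.law ^ L • m = 0)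
    (hv : ∃ t : ℕ, ∀ m : RingHom.ker ρ, vv p n o.law ^ t • m = 0)
    (hu : Function.Bijective fun m : RingHom.ker ρ => vv p (n + 1) o.law • m)
    (hTop : ∀ m : RingHom.ker ρ, ∀ N,
      haveI := good_gr_one o (Fin N)
      ∃ w' : E.U (LC.of (Gr 1 (Fin N))),
        (m : E.A) • nev1 (o.z (Fin N)) (multSeries o.law.toFG (p ^ k)) ^ d =
          nev1 (o.z (Fin N)) (multSeries o.law.toFG (p ^ (k + 1))) * w')
    (m : RingHom.ker ρ) : vv p n o.law ^ (d * (n * L + 1)) • m = 0 := by
  refine blue_alg p o.law n k L d hI hv hu (fun m N => ?_) m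
  haveI := good_gr_one o (Fin N)
  obtain ⟨w', hw'⟩ := hTop m N
  have e1 : ∀ m, multSeries o.law.toFG m = (multSeries F₀.toFG m).map ι := by
    intro m
    rw [hF, Law.map_toFG, map_multSeries]
  rw [← nev1_pow (isNilpotent_z o (Fin N)), e1, e1, ← map_pow] at hw'
  rw [e1, e1, ← map_pow]
  exact exists_conv_of_nev1 o ρ ι hι m w' hw'

end theory

end Vale.Agent.P241.H891
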