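import Mathlib.RingTheory.PowerSeries.Basic
import Mathlib.RingTheory.Ideal.Operations
import Mathlib.Tactic.LinearCombination
import Mathlib.Tactic.Abel

/-!
# P241, block F (upper bound): power series acting on sequences in a module

`conv f g` is the product of the power series `f` over `R` with the sequence `g : ℕ → M`,
which stands for the formal series `∑ g n y ^ n` in `M[[y]]`.
-/

open Finset PowerSeries

namespace Vale.Agent.P241.H891

variable {R M : Type*} [CommRing R] [AddCommGroup M] [Module R M]

/-- the product of `f ∈ R[[y]]` and `g ∈ M[[y]]` -/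
noncomputable def conv (f : R⟦X⟧) (g : ℕ → M) : ℕ → M := fun n =>
  ∑ ij ∈ antidiagonal n, coeff ij.1 f • g ij.2

theorem conv_add_left (f f' : R⟦X⟧) (g : ℕ → M) : conv (f + f') g = conv f g + conv f' g := by
  funext n
  simp only [conv, map_add, add_smul, sum_add_distrib, Pi.add_apply]

theorem conv_add (f : R⟦X⟧) (g g' : ℕ → M) : conv f (g + g') = conv f g + conv f g' := by
  funext n
  simp only [conv, Pi.add_apply, smul_add, sum_add_distrib]

theorem conv_sub (f : R⟦X⟧) (g g' : ℕ → M) : conv f (g - g') = conv f g - conv f g' := by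
  funext n
  simp only [conv, Pi.sub_apply, smul_sub, sum_sub_distrib]

theorem conv_sub_left (f f' : R⟦X⟧) (g : ℕ → M) : conv (f - f') g = conv f g - conv f' g := by
  funext n
  simp only [conv, map_sub, sub_smul, sum_sub_distrib, Pi.sub_apply]

theorem conv_neg (f : R⟦X⟧) (g : ℕ → M) : conv f (-g) = -conv f g := by
  funext n
  simp only [conv, Pi.neg_apply, smul_neg, sum_neg_distrib]

theorem conv_zero (f : R⟦X⟧) : conv f (0 : ℕ → M) = 0 := by
  funext n
  simp [conv]

theorem conv_smul (f : R⟦X⟧) (a : R) (g : ℕ → M) : conv f (a • g) = a • conv f g := by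
  funext n
  simp only [conv, Pi.smul_apply, smul_sum]
  exact sum_congr rfl fun ij _ => smul_comm _ _ _

theorem conv_C (a : R) (g : ℕ → M) : conv (C a) g = a • g := by
  funext n
  simp only [conv, coeff_C, Pi.smul_apply]
  rw [sum_eq_single (0, n)]
  · simp
  · rintro ⟨i, j⟩ hij hne
    have : i ≠ 0 := by
      rintro rfl
      apply hne
      simp only [mem_antidiagonal, zero_add] at hij
      rw [hij]
    simp [this]
  · intro h
    exact absurd (by simp) h

theorem conv_one (g : ℕ → M) : conv (1 : R⟦X⟧) g = g := by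
  have := conv_C (1 : R) g
  rwa [map_one, one_smul] at this

theorem conv_mul (f f' : R⟦X⟧) (g : ℕ → M) : conv (f * f') g = conv f (conv f' g) := by
  funext n
  simp only [conv, coeff_mul, sum_smul, smul_sum, mul_smul]
  rw [Finset.sum_sigma', Finset.sum_sigma']
  refine Finset.sum_nbij' (fun x => ⟨(x.2.1, x.2.2 + x.1.2), (x.2.2, x.1.2)⟩)
    (fun x => ⟨(x.1.1 + x.2.1, x.2.2), (x.1.1, x.2.1)⟩) ?_ ?_ ?_ ?_ ?_
  · rintro ⟨⟨a, b⟩, ⟨c, d⟩⟩ h
    simp only [mem_sigma, mem_antidiagonal] at h ⊢
    obtain ⟨h1, h2⟩ := h
    exact ⟨by omega, trivial⟩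
  · rintro ⟨⟨a, b⟩, ⟨c, d⟩⟩ h
    simp only [mem_sigma, mem_antidiagonal] at h ⊢
    obtain ⟨h1, h2⟩ := h
    exact ⟨by omega, trivial⟩
  · rintro ⟨⟨a, b⟩, ⟨c, d⟩⟩ h
    simp only [mem_sigma, mem_antidiagonal] at h
    obtain ⟨h1, h2⟩ := h
    subst h2
    rfl
  · rintro ⟨⟨a, b⟩, ⟨c, d⟩⟩ h
    simp only [mem_sigma, mem_antidiagonal] at h
    obtain ⟨h1, h2⟩ := h
    subst h2
    rfl
  · rintro ⟨⟨a, b⟩, ⟨c, d⟩⟩ h
    rfl

theorem conv_pow_succ (f : R⟦X⟧) (n : ℕ) (g : ℕ → M) :
    conv (f ^ (n + 1)) g = conv (f ^ n) (conv f g) := by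
  rw [pow_succ, conv_mul]

/-- the constant sequence `m, 0, 0, ...` -/
def cst (m : M) : ℕ → M := fun n => if n = 0 then m else 0

theorem conv_cst (f : R⟦X⟧) (m : M) : conv f (cst m) = fun n => coeff n f • m := by
  funext n
  simp only [conv, cst]
  rw [sum_eq_single (n, 0)]
  · simp
  · rintro ⟨i, j⟩ hij hne
    have : j ≠ 0 := by
      rintro rfl
      apply hne
      simp only [mem_antidiagonal, add_zero] at hij
      rw [hij]
    simp [this]
  · intro h
    exact absurd (by simp) h

theorem smul_cst (a : R) (m : M) : a • cst m = (cst (a • m) : ℕ → M) := by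
  funext n
  simp only [cst, Pi.smul_apply]
  split_ifs <;> simp

theorem cst_zero : cst (0 : M) = 0 := by
  funext n
  simp [cst]

theorem conv_congr {f f' : R⟦X⟧} {g : ℕ → M}
    (h : ∀ i j, (coeff i f - coeff i f') • g j = 0) : conv f g = conv f' g := by
  funext n
  simp only [conv]
  refine sum_congr rfl fun ij _ => ?_
  have := h ij.1 ij.2
  rwa [sub_smul, sub_eq_zero] at this

/-- multiplication by `y ^ D` -/
theorem conv_X_pow (D : ℕ) (g : ℕ → M) (n : ℕ) :
    conv ((X : R⟦X⟧) ^ D) g n = if D ≤ n then g (n - D) else 0 := by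
  simp only [conv, coeff_X_pow]
  split_ifs with h
  · rw [sum_eq_single (D, n - D)]
    · simp
    · rintro ⟨i, j⟩ hij hne
      have : i ≠ D := by
        rintro rfl
        apply hne
        simp only [mem_antidiagonal] at hij
        rw [← hij]
        simp
      simp [this]
    · intro h'
      exact absurd (by simp; omega) h'
  · refine sum_eq_zero ?_
    rintro ⟨i, j⟩ hij
    simp only [mem_antidiagonal] at hij
    have : i ≠ D := by omega
    simp [this]

/-- the lowest coefficient of `f g` when `f₀` is injective -/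
theorem eq_zero_of_conv_eq_zero {f : R⟦X⟧} (hf : ∀ m : M, coeff 0 f • m = 0 → m = 0)
    {g : ℕ → M} (h : conv f g = 0) : g = 0 := by
  funext n
  induction n using Nat.strong_induction_on with
  | _ n ih =>
    have h1 := congrFun h n
    simp only [conv, Pi.zero_apply] at h1
    rw [sum_eq_single (0, n)] at h1
    · exact hf _ h1
    · rintro ⟨i, j⟩ hij hne
      simp only [mem_antidiagonal] at hij
      have hj : j < n := by
        rcases Nat.lt_or_ge j n with h | h
        · exact h
        · exfalso
          apply hne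
          ext <;> simp <;> omega
      simp only
      rw [ih j hj, Pi.zero_apply, smul_zero]
    · intro h'
      exact absurd (by simp) h'

/-- `f` with bijective `f₀` acts surjectively on `M[[y]]`, and a solution of `f g' = g` is killed
by everything which kills `g`. -/
theorem exists_conv_eq {f : R⟦X⟧} (hf : Function.Bijective fun m : M => coeff 0 f • m)
    (g : ℕ → M) : ∃ g' : ℕ → M, conv f g' = g := by
  -- the partial solutions
  have key : ∀ n : ℕ, ∀ s : ℕ → M, ∃ m : M,
      coeff 0 f • m = g n - ∑ ij ∈ antidiagonal n, if ij.1 = 0 then 0 else coeff ij.1 f • s ij.2 :=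
    fun n s => hf.2 _
  choose F hF using key
  -- strong recursion
  let sol : ℕ → M := fun n => Nat.strongRec (motive := fun _ => M)
    (fun n ih => F n (fun j => if h : j < n then ih j h else 0)) n
  have hsol : ∀ n, sol n = F n (fun j => if j < n then sol j else 0) := by
    intro n
    have h1 : sol n = F n (fun j => if h : j < n then sol j else 0) := by
      change Nat.strongRec (motive := fun _ => M) _ n = _
      rw [Nat.strongRec_eq]
    rw [h1]
    congr 1
  refine ⟨sol, ?_⟩
  funext n
  have h1 := hF n (fun j => if j < n then sol j else 0)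
  rw [← hsol n] at h1
  simp only [conv]
  have h2 : ∑ ij ∈ antidiagonal n, coeff ij.1 f • sol ij.2 =
      coeff 0 f • sol n + ∑ ij ∈ antidiagonal n, (if ij.1 = 0 then (0 : M) else
        coeff ij.1 f • (if ij.2 < n then sol ij.2 else 0)) := by
    have h3 : coeff 0 f • sol n =
        ∑ ij ∈ antidiagonal n, (if ij.1 = 0 then coeff ij.1 f • sol ij.2 else 0) := by
      rw [sum_eq_single (0, n)]
      · simp
      · rintro ⟨i, j⟩ hij hne
        have : i ≠ 0 := by
          rintro rfl
          apply hne
          simp only [mem_antidiagonal, zero_add] at hij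
          rw [hij]
        simp [this]
      · intro h
        exact absurd (by simp) h
    rw [h3, ← sum_add_distrib]
    refine sum_congr rfl ?_
    rintro ⟨i, j⟩ hij
    simp only [mem_antidiagonal] at hij
    by_cases hi : i = 0
    · simp [hi]
    · have hj : j < n := by omega
      simp [hi, hj]
  rw [h2, h1]
  abel

end Vale.Agent.P241.H891
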