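import Vale.Agent.P241.H891.GlueT
import Vale.Agent.P241.Final.Ctx
import Vale.Agent.P241.St.Defs
import Mathlib.Analysis.SpecialFunctions.Complex.CircleAddChar

/-!
# P241, block UB: the blue shift statement for cyclic groups

* `F1Stmt X` : the input from equivariant topology (block UB-4);
* `blue_cyclic` : `H125.Blue` for a finite `C`-cell space, `C` a cyclic `p`-group.
-/

open CategoryTheory MonoidalCategory Limits Pretriangulated MonObj
open Vale.Agent.P251.St Vale.Agent.P251.St.SHCat Vale.Agent.P241.St Vale.Agent.P241.Final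
open Vale.Agent.P251.G Vale.Agent.P251.G.LC Vale.Agent.P251.I Vale.Agent.P251.T
open Vale.Agent.P251.M Vale.Agent.P251.S Vale.Agent.P251.F Vale.Agent.P251.M.EvenSpheres
open Vale.Agent.P241.H588 Vale.Agent.P217

set_option linter.unusedSectionVars false

noncomputable section

namespace Vale.Agent.P241.H891

variable {T : SHCat} {S : Susp T}

/-- The input from equivariant topology: `C` a finite group with an injective character `lam`, the
representation `lam^j` trivial on all proper subgroups, `Y` a finite `C`-cell space. There is an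
exponent `d` such that for every module `N` over a commutative monoid `P` with `N ⊗ Y = 0` and all
`A`, the square zero ideal of the theory of `ihom A (N ⊗ Y^C)` is killed by `[j](z)^d` on the lens
spaces of `C`. -/
def F1Stmt (X : Ctx S) : Prop :=
  ∀ (C : Type) [Group C] [Finite C] (lam : C →* Circle), Function.Injective lam →
    ∀ q j : ℕ, q ≠ 0 → Nat.card C = q →
      (∀ H : Subgroup C, H ≠ ⊤ → ∀ g ∈ H, lam g ^ j = 1) →
    ∀ Y : GSpace C, GFC C Y → ∃ d : ℕ, ∀ (P N : T.C) [MonObj P] [IsCommMonObj P]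
      (M : ModStr P N) (A : T.C), IsZero (N ⊗ S.obj Y.und) →
      ∀ (o : Vale.Agent.P251.Q.Orientation (thK X.e (Sqz (ihomMod A (M.tensorRight (S.obj (Y.fix ⊤)))))))
        (m : KK X.e (ihomMod A (M.tensorRight (S.obj (Y.fix ⊤))))) (I : Type) [Fintype I],
        (thK X.e (Sqz (ihomMod A (M.tensorRight (S.obj (Y.fix ⊤)))))).mapAlg (lensPrC q I)
          ((m : (thK X.e (Sqz (ihomMod A (M.tensorRight (S.obj (Y.fix ⊤)))))).A) •
            Vale.Agent.P251.Q.nev1 (o.z I) (multSeries o.law.toFG j) ^ d) = 0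

theorem coefK_vel (X : Ctx S) (p i : ℕ) : coefK X.e X.M.R (vv p i X.o.law) =
    HRing.of (stdEven T.C) X.M.R ((p ^ i : ℤ) - 1) (X.D.vel p i) := by
  exact (vv_map p i (coefK X.e X.M.R) X.o.law).symm.trans
    ((congrArg (vv p i) X.law_eq).symm.trans (X.D.vel_spec p i))

/-- an injective character of a finite cyclic group -/
theorem exists_lam (C : Type) [Group C] [Finite C] [IsCyclic C] :
    ∃ lam : C →* Circle, Function.Injective lam := by
  have : NeZero (Nat.card C) := ⟨Nat.card_pos.ne'⟩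
  let f := zmodCyclicMulEquiv (G := C) inferInstance
  refine ⟨(ZMod.toCircle (N := Nat.card C)).toMonoidHom.comp f.symm.toMonoidHom, ?_⟩
  intro x y hxy
  have h1 : ZMod.toCircle (Multiplicative.toAdd (f.symm x)) =
      ZMod.toCircle (Multiplicative.toAdd (f.symm y)) := hxy
  exact f.symm.injective (Multiplicative.toAdd.injective (ZMod.injective_toCircle h1))

theorem pow_eq_one_of_mem {p k : ℕ} (hp : p.Prime) {C : Type} [Group C] [Finite C]
    (hk : Nat.card C = p ^ (k + 1)) (H : Subgroup C) (hH : H ≠ ⊤) {g : C} (hg : g ∈ H) :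
    g ^ p ^ k = 1 := by
  have h1 : Nat.card H ∣ p ^ (k + 1) := hk ▸ Subgroup.card_subgroup_dvd_card H
  obtain ⟨t, ht, h2⟩ := (Nat.dvd_prime_pow hp).1 h1
  have h3 : t ≤ k := by
    rcases Nat.lt_succ_iff_lt_or_eq.1 (Nat.lt_succ_of_le ht) with h | h
    · exact Nat.lt_succ_iff.1 h
    · exfalso
      apply hH
      apply Subgroup.eq_top_of_card_eq
      rw [h2, h, hk]
  have h4 : (⟨g, hg⟩ : H) ^ Nat.card H = 1 := pow_card_eq_one'
  have h5 : g ^ p ^ t = 1 := by
    have := congrArg (Subtype.val) h4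
    rw [h2] at this
    exact this
  obtain ⟨s, rfl⟩ := Nat.exists_eq_add_of_le h3
  rw [pow_add, pow_mul, h5, one_pow]

theorem isZero_of_acyclic {E W : T.C} (h : Vale.Agent.P251.St.Acyclic E W) : IsZero (E ⊗ W) :=
  (IsZero.iff_id_eq_zero _).2 h

/-- **The blue shift statement for cyclic groups.** -/
theorem blue_cyclic (X : Ctx S) (h : F1Stmt X) {p : ℕ} [Fact p.Prime] (C : Type) [Group C]
    [Finite C] [IsCyclic C] (hC : IsPGroup p C) (Y : GSpace C) (hY : GFC C Y) (n : ℕ)
    (h1 : ∀ N : T.C, Nat.card C = 1 → IsZero (N ⊗ S.obj Y.und) →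
      IsZero (N ⊗ S.obj (Y.fix ⊤))) :
    H125.Blue (P := X.D.P) (X.D.vs p) n (S.obj Y.und) (S.obj (Y.fix ⊤)) := by
  have hp : p.Prime := Fact.out
  obtain ⟨k, hk⟩ := IsPGroup.iff_card.1 hC
  rcases k with _ | k
  · rw [pow_zero] at hk
    intro L
    refine ⟨1, fun N M _ hN => ?_⟩
    exact (h1 N hk hN).eq_of_src _ _
  · obtain ⟨lam, hl⟩ := exists_lam C
    obtain ⟨d, hd⟩ := h C lam hl (p ^ (k + 1)) (p ^ k) (pow_ne_zero _ hp.ne_zero) hk
      (fun H hH g hg => by
        rw [← map_pow, pow_eq_one_of_mem hp hk H hH hg, map_one]) Y hY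
    exact blue_of_hTop (T := T.C) X.e X.o (p := p) (w := fun i => (p ^ i : ℤ) - 1)
      (a := fun i => X.D.vel p i) (coefK_vel X p) (n := n) (k := k) (d := d)
      (X := S.obj Y.und) (Y := S.obj (Y.fix ⊤))
      fun N M hN m N' => hd _ N M _ hN (oB X.e X.o _) m (Fin N')

end Vale.Agent.P241.H891
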