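import Vale.Agent.P241.H891.Cyclic
import Vale.Agent.P241.H402.G3
import Vale.Agent.P241.H125.F4

/-!
# P241, block UB: the upper bound, unconditional

`cyclic`, `upper` : the cyclic case and `r_n(G, H) ≤ ℓ(G, H)` at all heights `n ≥ 0`, for all
primes; `smith_of_lower` : `r_n(G, H) = ℓ(G, H)` from the lower bound.
-/

open CategoryTheory
open Vale.Agent.P251.St Vale.Agent.P251.St.SHCat Vale.Agent.P241.St Vale.Agent.P241.Final

namespace Vale.Agent.P241.H891

variable {T : SHCat} (S : Susp T) (p : ℕ) [Fact p.Prime]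

/-- **The cyclic case**: for a cyclic `p`-group `C` and a finite `C`-cell space `X`,
`K(n+1)_* X = 0` implies `K(n)_* (X^C) = 0`. -/
theorem cyclic : H14.CyclicCase S p := by
  obtain ⟨X⟩ := Ctx.nonempty S
  exact cyclicCase X (H402.f1 X) (H125.f4Stmt X p)

/-- **The upper bound** `r_n(G, H) ≤ ℓ(G, H)`. -/
theorem upper : UpperBound S p := H14.upperBound_of_cyclic (cyclic S p)

/-- **`r_n(G, H) = ℓ(G, H)`**, from the lower bound. -/
theorem smith_of_lower (hL : LowerBound S p) : Smith S p := H14.smith_of_cyclic (cyclic S p) hL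

end Vale.Agent.P241.H891
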