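import Vale.Agent.P241.H891.UBAlg
import Vale.Agent.P251.Q.PSeries

/-!
# P241, block UB: from classes on projective spaces to formal series over the square zero ideal

`E` an oriented theory whose coefficient ring `E.A` is a square zero extension `ρ : E.A → A₀` with a
section `ι`, and whose law comes from `A₀`.  A relation
`m • α(z) ^ d = P(z) * w'` in `E(CP^N)` with `m ∈ ker ρ` gives a relation in `(ker ρ)[[y]]`,
modulo `y ^ N`.
-/

open CategoryTheory MonoidalCategory OnePoint Matrix Topology Finset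
open Vale.Agent.P251.G Vale.Agent.P251.G.LC

universe v

set_option linter.unusedSectionVars false
set_option linter.style.haveILetI false

noncomputable section

namespace Vale.Agent.P241.H891

open Vale.Agent.P251.Q Vale.Agent.P251.Q.MultTheory Vale.Agent.P217 Vale.Agent.P251.F

section ker

variable {A A₀ : Type*} [CommRing A] [CommRing A₀] (ρ : A →+* A₀) (ι : A₀ →+* A)
  (hι : ∀ a, ρ (ι a) = a)

include hι in
theorem sub_mem_ker (a : A) : a - ι (ρ a) ∈ RingHom.ker ρ := by
  rw [RingHom.mem_ker, map_sub, hι, sub_self]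

/-- the projection to the square zero ideal -/
def kerProj (a : A) : RingHom.ker ρ := ⟨a - ι (ρ a), sub_mem_ker ρ ι hι a⟩

theorem kerProj_sum {T : Type*} (s : Finset T) (f : T → A) :
    kerProj ρ ι hι (∑ t ∈ s, f t) = ∑ t ∈ s, kerProj ρ ι hι (f t) := by
  apply Subtype.ext
  rw [AddSubmonoidClass.coe_finsetSum]
  simp only [kerProj, map_sum, sum_sub_distrib]

theorem kerProj_ι_mul (a : A₀) (b : A) :
    kerProj ρ ι hι (ι a * b) = ι a • kerProj ρ ι hι b := by
  apply Subtype.ext
  change ι a * b - ι (ρ (ι a * b)) = ι a * (b - ι (ρ b))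
  rw [map_mul, map_mul, hι, mul_sub]

theorem kerProj_coe (m : RingHom.ker ρ) : kerProj ρ ι hι (m : A) = m := by
  apply Subtype.ext
  change (m : A) - ι (ρ (m : A)) = m
  rw [(RingHom.mem_ker).mp m.2, map_zero, sub_zero]

/-- coefficientwise comparison -/
theorem conv_of_coeff {N : ℕ} {α P : PowerSeries A₀} (m : RingHom.ker ρ) (c : PowerSeries A)
    (h : ∀ n < N, PowerSeries.coeff n (P.map ι * c) =
      PowerSeries.coeff n (PowerSeries.C (m : A) * α.map ι)) :
    ∀ n < N, conv (P.map ι) (fun i => kerProj ρ ι hι (PowerSeries.coeff i c)) n =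
      conv (α.map ι) (cst m) n := by
  intro n hn
  have h1 := h n hn
  rw [PowerSeries.coeff_C_mul, PowerSeries.coeff_mul] at h1
  rw [conv_cst]
  change _ = PowerSeries.coeff n (α.map ι) • m
  have h2 : kerProj ρ ι hι ((m : A) * PowerSeries.coeff n (α.map ι)) =
      PowerSeries.coeff n (α.map ι) • m := by
    have h3 : (m : A) * PowerSeries.coeff n (α.map ι) =
        ((PowerSeries.coeff n (α.map ι) • m : RingHom.ker ρ) : A) := by
      rw [mul_comm]; rfl
    rw [h3, kerProj_coe]
  rw [← h2, ← h1, kerProj_sum]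
  refine Finset.sum_congr rfl fun ij _ => ?_
  rw [PowerSeries.coeff_map, kerProj_ι_mul]

end ker

section theory

variable {E : MultTheory.{v}} (o : Orientation E)

/-- comparison of coefficients on `CP^(N-1)` -/
theorem coeff_eq_of_nev1 (N : ℕ) [E.Good (LC.of (Gr 1 (Fin N)))] (f g : PowerSeries E.A)
    (h : nev1 (o.z (Fin N)) f = nev1 (o.z (Fin N)) g) (n : ℕ) (hn : n < N) :
    PowerSeries.coeff n f = PowerSeries.coeff n g := by
  have hz := z_pow_eq_zero o N (Fin N) (by simp)
  rw [nev1_eq_sum hz, nev1_eq_sum hz, Finset.sum_range, Finset.sum_range] at h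
  have h4 := (freeOn_z o N (Fin N) (Fintype.card_fin _)).bijective_smul.1
    (a₁ := fun k : Fin N => PowerSeries.coeff (k : ℕ) f)
    (a₂ := fun k : Fin N => PowerSeries.coeff (k : ℕ) g) h
  exact congrFun h4 ⟨n, hn⟩

/-- every class on `CP^(N-1)` is the value of a power series -/
theorem exists_nev1 (N : ℕ) [E.Good (LC.of (Gr 1 (Fin N)))] (w : E.U (LC.of (Gr 1 (Fin N)))) :
    ∃ f : PowerSeries E.A, w = nev1 (o.z (Fin N)) f := by
  obtain ⟨a, ha⟩ := (freeOn_z o N (Fin N) (Fintype.card_fin _)).bijective_smul.2 w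
  refine ⟨PowerSeries.mk fun n => if h : n < N then a ⟨n, h⟩ else 0, ?_⟩
  rw [nev1_eq_sum (z_pow_eq_zero o N (Fin N) (by simp)), Finset.sum_range, ← ha]
  refine Finset.sum_congr rfl fun i _ => ?_
  rw [PowerSeries.coeff_mk, dif_pos i.2]

theorem isNilpotent_z (I : Type) [Fintype I] [E.Good (LC.of (Gr 1 I))] :
    IsNilpotent (o.z I) := ⟨_, z_pow_eq_zero o _ I le_rfl⟩

variable {A₀ : Type*} [CommRing A₀] (ρ : E.A →+* A₀) (ι : A₀ →+* E.A) (hι : ∀ a, ρ (ι a) = a)

include hι in
theorem exists_conv_of_nev1 {N : ℕ} [E.Good (LC.of (Gr 1 (Fin N)))] {α P : PowerSeries A₀}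
    (m : RingHom.ker ρ) (w' : E.U (LC.of (Gr 1 (Fin N))))
    (h : (m : E.A) • nev1 (o.z (Fin N)) (α.map ι) = nev1 (o.z (Fin N)) (P.map ι) * w') :
    ∃ g' : ℕ → RingHom.ker ρ, ∀ n < N, conv (P.map ι) g' n = conv (α.map ι) (cst m) n := by
  obtain ⟨c, rfl⟩ := exists_nev1 o N w'
  have hz := isNilpotent_z o (Fin N)
  refine ⟨_, conv_of_coeff ρ ι hι m c fun n hn => ?_⟩
  refine coeff_eq_of_nev1 o N _ _ ?_ n hn
  rw [nev1_mul hz, nev1_mul hz, nev1_C hz, ← h, Algebra.smul_def]

end theory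

end Vale.Agent.P241.H891
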