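import Vale.Agent.P241.H588.IHomMod
import Vale.Agent.P251.M.ChainT
import Vale.Agent.P251.M.InvMU

/-!
# P241, block UB: the coefficient ring of the theory of a square zero extension

`P` a commutative monoid of `T`, `M : ModStr P Z`, `B = Sqz M`, `E = thK e B`:

* `rho : E.A →+* (thK e P).A`, `iota` : the projection and its section;
* `zc m w : S^{2w} ⟶ Z` : the components of an element `m` of the kernel of `rho`;
* `lowA a : (thK e P).A` : the degree zero element of a scalar `a : 𝟙 ⟶ P`; it acts by `M.smul a`;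
* `tst z` : the element of the kernel given by `z : 𝟙 ⟶ Z`.
-/

open CategoryTheory MonoidalCategory Limits Pretriangulated MonObj
open Vale.Agent.P251.G Vale.Agent.P251.G.LC Vale.Agent.P251.I Vale.Agent.P251.T
open Vale.Agent.P251.M Vale.Agent.P251.S Vale.Agent.P251.F Vale.Agent.P251.M.EvenSpheres
open Vale.Agent.P241.H588

universe v u

set_option linter.unusedSectionVars false

noncomputable section

namespace Vale.Agent.P241.H891

variable {T : Type u} [Category.{v} T] [Preadditive T] [HasZeroObject T]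
    [HasShift T ℤ] [∀ n : ℤ, (shiftFunctor T n).Additive] [Pretriangulated T]
    [MonoidalCategory T] [SymmetricCategory T] [TensorTriangulated T] [MonoidalClosed T]
    [HasCoproducts.{0} T] [HasBinaryBiproducts T]
  {S : EvenSpheres T} {F : SpaceFunctor T} (e : F.S.obj CCF ≅ S.L)

/-- multiplication with an element of degree `0`, in components -/
theorem of_zero_mul_apply {R : T} [MonObj R] (y : S.S 0 ⟶ R) (c : HRing S R) (w : ℤ) :
    ((HRing.of S R 0 y * c) w : S.S w ⟶ R) = gmul (zero_add w) y (c w : S.S w ⟶ R) := by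
  induction c using DirectSum.induction_on with
  | zero =>
    rw [mul_zero]
    change (0 : S.S w ⟶ R) = gmul (zero_add w) y (0 : S.S w ⟶ R)
    rw [gmul_zero_right]
  | of m b =>
    have h := of_mul_of (R := R) (zero_add m) y b
    refine (congrArg (fun c : HRing S R => (c w : S.S w ⟶ R)) h).trans ?_
    by_cases hm : m = w
    · subst hm
      rw [DirectSum.of_eq_same, DirectSum.of_eq_same]
    · have e1 : (DirectSum.of (S.Gr R) m (gmul (zero_add m) y b)) w = 0 :=
        DirectSum.of_eq_of_ne _ _ _ (Ne.symm hm)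
      have e2 : (DirectSum.of (S.Gr R) m b) w = 0 := DirectSum.of_eq_of_ne _ _ _ (Ne.symm hm)
      refine e1.trans ?_
      rw [e2]
      exact (gmul_zero_right (zero_add w) y).symm
  | add a b ha hb =>
    rw [mul_add]
    refine (congrArg₂ (fun s t : S.S w ⟶ R => s + t) ha hb).trans ?_
    exact (gmul_add_right _ _ _ _).symm

/-- the additive map of homotopy rings given by a map -/
def hmap {R : T} (φ : R ⟶ R) : HRing S R →+ HRing S R :=
  DirectSum.toAddMonoid fun n => (DirectSum.of (S.Gr R) n).comp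
    { toFun := fun a : S.S n ⟶ R => (a ≫ φ : S.S n ⟶ R)
      map_zero' := (zero_comp : (0 : S.S n ⟶ R) ≫ φ = 0)
      map_add' := fun _ _ => Preadditive.add_comp _ _ _ _ _ _ }

theorem hmap_apply {R : T} (φ : R ⟶ R) (c : HRing S R) (w : ℤ) :
    (hmap φ c w : S.S w ⟶ R) = (c w : S.S w ⟶ R) ≫ φ := by
  induction c using DirectSum.induction_on with
  | zero =>
    rw [map_zero]
    exact (zero_comp : (0 : S.S w ⟶ R) ≫ φ = 0).symm
  | of m b =>
    have h : hmap φ (DirectSum.of (S.Gr R) m b) =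
        DirectSum.of (S.Gr R) m ((b : S.S m ⟶ R) ≫ φ : S.S m ⟶ R) :=
      DirectSum.toAddMonoid_of _ _ _
    rw [h]
    by_cases hm : m = w
    · subst hm
      rw [DirectSum.of_eq_same, DirectSum.of_eq_same]
    · have e1 : (DirectSum.of (S.Gr R) m ((b : S.S m ⟶ R) ≫ φ : S.S m ⟶ R)) w = 0 :=
        DirectSum.of_eq_of_ne _ _ _ (Ne.symm hm)
      have e2 : (DirectSum.of (S.Gr R) m b) w = 0 := DirectSum.of_eq_of_ne _ _ _ (Ne.symm hm)
      refine e1.trans ?_
      rw [e2]
      exact (zero_comp : (0 : S.S w ⟶ R) ≫ φ = 0).symm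
  | add a b ha hb =>
    rw [map_add]
    refine (congrArg₂ (fun s t : S.S w ⟶ R => s + t) ha hb).trans ?_
    exact (Preadditive.add_comp _ _ _ _ _ _).symm

section

variable {P Z : T} [MonObj P] [IsCommMonObj P] (M : ModStr P Z)

/-- the product of a scalar and an element, projected to `Z` -/
theorem gmul_inl_snd {n : ℤ} (h : 0 + n = n) (a : 𝟙_ T ⟶ P) (z : S.S n ⟶ Sqz M) :
    gmul h (S.zero.inv ≫ a ≫ Sqz.inl M) z ≫ Sqz.snd M = (z ≫ Sqz.snd M) ≫ M.smul a := by
  unfold gmul
  rw [one_ext, ModStr.smul]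
  simp only [Category.assoc]
  rw [Sqz.mul_def, Sqz.mu_snd, Preadditive.comp_add, ← Category.assoc ((a ≫ Sqz.inl M) ▷ _),
    Sqz.wr_tensor, ← Category.assoc ((a ≫ Sqz.inl M) ▷ _), Sqz.wr_tensor, Category.assoc,
    Sqz.inl_fst, Category.comp_id, Category.assoc, Sqz.inl_snd, comp_zero,
    MonoidalPreadditive.zero_tensor, zero_comp, add_zero, tensorHom_def', Category.assoc,
    leftUnitor_inv_naturality_assoc, leftUnitor_inv_naturality_assoc]
  simp only [leftUnitor_inv_naturality_assoc]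

/-- the projection to the coefficients of `P` -/
def rho : (thK e (Sqz M)).A →+* (thK e P).A := (thKHom e (Sqz.fst M)).mapA

/-- its section -/
def iota : (thK e P).A →+* (thK e (Sqz M)).A := (thKHom e (Sqz.inl M)).mapA

theorem rho_iota (a : (thK e P).A) : rho e M (iota e M a) = a := by
  apply (coefK_bijective e P).1
  unfold rho iota
  rw [coefK_mapA, coefK_mapA, ← RingHom.comp_apply, ← HRing.map_comp]
  have h : HRing.map (E := S) (Sqz.inl M ≫ Sqz.fst M) = HRing.map (E := S) (𝟙 P) :=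
    HRing_map_congr (Sqz.inl_fst M)
  rw [h, HRing.map_id]
  rfl

/-- the ideal -/
abbrev KK : Ideal (thK e (Sqz M)).A := RingHom.ker (rho e M)

/-- the components of an element of the coefficient ring, projected to `Z` -/
def zc (w : ℤ) : (thK e (Sqz M)).A →+ (S.S w ⟶ Z) where
  toFun a := (coefK e (Sqz M) a w : S.S w ⟶ Sqz M) ≫ Sqz.snd M
  map_zero' := by
    rw [map_zero]
    exact zero_comp
  map_add' a b := by
    rw [map_add]
    exact Preadditive.add_comp _ _ _ _ _ _

theorem zc_apply (w : ℤ) (a : (thK e (Sqz M)).A) :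
    zc e M w a = (coefK e (Sqz M) a w : S.S w ⟶ Sqz M) ≫ Sqz.snd M := rfl

theorem map_apply {R R' : T} [MonObj R] [MonObj R'] (f : R ⟶ R') [IsMonHom f] (c : HRing S R)
    (w : ℤ) : (HRing.map (E := S) f c w : S.S w ⟶ R') = (c w : S.S w ⟶ R) ≫ f := by
  induction c using DirectSum.induction_on with
  | zero =>
    rw [map_zero]
    exact (zero_comp : (0 : S.S w ⟶ R) ≫ f = 0).symm
  | of m b =>
    have h : HRing.map (E := S) f (DirectSum.of (S.Gr R) m b) =
        DirectSum.of (S.Gr R') m ((b : S.S m ⟶ R) ≫ f : S.S m ⟶ R') := HRing.map_of _ _ _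
    rw [h]
    by_cases hm : m = w
    · subst hm
      rw [DirectSum.of_eq_same, DirectSum.of_eq_same]
    · have e1 : (DirectSum.of (S.Gr R') m ((b : S.S m ⟶ R) ≫ f : S.S m ⟶ R')) w = 0 :=
        DirectSum.of_eq_of_ne _ _ _ (Ne.symm hm)
      have e2 : (DirectSum.of (S.Gr R) m b) w = 0 := DirectSum.of_eq_of_ne _ _ _ (Ne.symm hm)
      refine e1.trans ?_
      rw [e2]
      exact (zero_comp : (0 : S.S w ⟶ R) ≫ f = 0).symm
  | add a b ha hb =>
    rw [map_add]
    refine (congrArg₂ (fun s t : S.S w ⟶ R' => s + t) ha hb).trans ?_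
    exact (Preadditive.add_comp _ _ _ _ _ _).symm

theorem mem_KK_iff (a : (thK e (Sqz M)).A) : a ∈ KK e M ↔
    ∀ w, (coefK e (Sqz M) a w : S.S w ⟶ Sqz M) ≫ Sqz.fst M = 0 := by
  rw [RingHom.mem_ker]
  have h : rho e M a = 0 ↔ HRing.map (E := S) (Sqz.fst M) (coefK e (Sqz M) a) = 0 := by
    rw [← coefK_mapA]
    constructor
    · intro h
      have h' : (thKHom e (Sqz.fst M)).mapA a = 0 := h
      rw [h', map_zero]
    · intro h
      exact (coefK_bijective e P).1 (h.trans (map_zero _).symm)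
  rw [h]
  constructor
  · intro h w
    rw [← map_apply, h]
    rfl
  · intro h
    refine DFinsupp.ext fun w => ?_
    exact (map_apply _ _ _).trans (h w)

/-- an element of the ideal is determined by its components -/
theorem KK_ext {a b : KK e M} (h : ∀ w, zc e M w a = zc e M w b) : a = b := by
  apply Subtype.ext
  apply (coefK_bijective e (Sqz M)).1
  refine DFinsupp.ext fun w => ?_
  refine Sqz.ext ?_ (h w)
  rw [(mem_KK_iff e M _).1 a.2 w, (mem_KK_iff e M _).1 b.2 w]

/-- an element of the ideal with given components -/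
theorem exists_zc (m : (thK e (Sqz M)).A) (φ : Z ⟶ Z) :
    ∃ m' : KK e M, ∀ w, zc e M w m' = zc e M w m ≫ φ := by
  obtain ⟨a, ha⟩ := (coefK_bijective e (Sqz M)).2
    (hmap (Sqz.snd M ≫ φ ≫ Sqz.inr M) (coefK e (Sqz M) m))
  refine ⟨⟨a, (mem_KK_iff e M a).2 fun w => ?_⟩, fun w => ?_⟩
  · rw [ha, hmap_apply]
    simp
  · rw [zc_apply, zc_apply]
    change (coefK e (Sqz M) a w : S.S w ⟶ Sqz M) ≫ _ = _
    rw [ha, hmap_apply]
    simp

/-- the element of degree `0` of the coefficient ring given by a scalar -/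
def lowA (x : 𝟙_ T ⟶ P) : (thK e P).A :=
  ((coefK_bijective e P).2 (HRing.of S P 0 (S.zero.inv ≫ x))).choose

theorem coefK_lowA (x : 𝟙_ T ⟶ P) : coefK e P (lowA e x) = HRing.of S P 0 (S.zero.inv ≫ x) :=
  ((coefK_bijective e P).2 (HRing.of S P 0 (S.zero.inv ≫ x))).choose_spec

theorem zc_lowA_mul (x : 𝟙_ T ⟶ P) (a : (thK e (Sqz M)).A) (w : ℤ) :
    zc e M w (iota e M (lowA e x) * a) = zc e M w a ≫ M.smul x := by
  rw [zc_apply, zc_apply, map_mul]
  have h : coefK e (Sqz M) (iota e M (lowA e x)) =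
      HRing.of S (Sqz M) 0 (S.zero.inv ≫ x ≫ Sqz.inl M) := by
    unfold iota
    rw [coefK_mapA, coefK_lowA, HRing.map_of, Category.assoc]
  rw [h, of_zero_mul_apply, gmul_inl_snd]

theorem zc_lowA_pow_mul (x : 𝟙_ T ⟶ P) (a : (thK e (Sqz M)).A) (w : ℤ) (n : ℕ) :
    zc e M w (iota e M (lowA e x) ^ n * a) = zc e M w a ≫ (M.sm x ^ n : End Z) := by
  induction n with
  | zero =>
    rw [pow_zero, _root_.one_mul, pow_zero]
    exact (Category.comp_id _).symm
  | succ n ih =>
    rw [pow_succ', _root_.mul_assoc, zc_lowA_mul, ih, pow_succ', Category.assoc]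
    rfl

theorem lowA_pow_smul_eq_zero {x : 𝟙_ T ⟶ P} {n : ℕ} (h : M.sm x ^ n = 0) (m : KK e M) :
    iota e M (lowA e x) ^ n • m = 0 := by
  refine KK_ext e M fun w => ?_
  change zc e M w (iota e M (lowA e x) ^ n * (m : (thK e (Sqz M)).A)) = zc e M w 0
  rw [zc_lowA_pow_mul, h, map_zero]
  exact comp_zero

theorem lowA_smul_bijective {x : 𝟙_ T ⟶ P} (h : IsIso (M.smul x)) :
    Function.Bijective fun m : KK e M => iota e M (lowA e x) • m := by
  constructor
  · intro a b hab
    refine KK_ext e M fun w => ?_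
    have h1 := congrArg (fun m : KK e M => zc e M w (m : (thK e (Sqz M)).A)) hab
    have h2 : zc e M w (a : (thK e (Sqz M)).A) ≫ M.smul x =
        zc e M w (b : (thK e (Sqz M)).A) ≫ M.smul x :=
      (zc_lowA_mul e M x _ w).symm.trans (h1.trans (zc_lowA_mul e M x _ w))
    exact (cancel_mono (M.smul x)).1 h2
  · intro b
    obtain ⟨a, ha⟩ := exists_zc e M (b : (thK e (Sqz M)).A) (inv (M.smul x))
    refine ⟨a, KK_ext e M fun w => ?_⟩
    refine (zc_lowA_mul e M x _ w).trans ?_
    rw [ha, Category.assoc, IsIso.inv_hom_id, Category.comp_id]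

/-- the element of the ideal given by `z : 𝟙 ⟶ Z` -/
theorem exists_tst (z : 𝟙_ T ⟶ Z) : ∃ m : KK e M, zc e M 0 m = S.zero.inv ≫ z := by
  obtain ⟨a, ha⟩ := (coefK_bijective e (Sqz M)).2
    (HRing.of S (Sqz M) 0 (S.zero.inv ≫ z ≫ Sqz.inr M))
  refine ⟨⟨a, (mem_KK_iff e M a).2 fun w => ?_⟩, ?_⟩
  · rw [ha, ← map_apply, HRing.map_of]
    have : (S.zero.inv ≫ z ≫ Sqz.inr M) ≫ Sqz.fst M = 0 := by
      rw [Category.assoc, Category.assoc, Sqz.inr_fst, comp_zero, comp_zero]
    rw [this]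
    have h0 : HRing.of S P 0 (0 : S.S 0 ⟶ P) = 0 := map_zero (DirectSum.of (S.Gr P) 0)
    rw [h0]
    exact DFinsupp.zero_apply _
  · rw [zc_apply]
    change (coefK e (Sqz M) a 0 : S.S 0 ⟶ Sqz M) ≫ _ = _
    rw [ha]
    have h0 : (HRing.of S (Sqz M) 0 (S.zero.inv ≫ z ≫ Sqz.inr M) 0 : S.S 0 ⟶ Sqz M) =
        S.zero.inv ≫ z ≫ Sqz.inr M := DirectSum.of_eq_same _ _
    rw [h0]
    simp

end

end Vale.Agent.P241.H891
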