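import Vale.Agent.P241.H891.BlueRing
import Vale.Agent.P241.H891.SqzCoef
import Vale.Agent.P241.H588.LensQ
import Vale.Agent.P241.H125.UBProd

/-!
# P241, block UB: the blue shift estimate for modules over `P = R ⊗ PS`
-/

open CategoryTheory MonoidalCategory Limits Pretriangulated MonObj
open Vale.Agent.P251.G Vale.Agent.P251.G.LC Vale.Agent.P251.I Vale.Agent.P251.T
open Vale.Agent.P251.M Vale.Agent.P251.S Vale.Agent.P251.F Vale.Agent.P251.M.EvenSpheres
open Vale.Agent.P241.H588 Vale.Agent.P251.Q Vale.Agent.P251.Q.MultTheory Vale.Agent.P217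

universe v u

set_option linter.unusedSectionVars false

noncomputable section

namespace Vale.Agent.P241.H891

variable {T : Type u} [Category.{v} T] [Preadditive T] [HasZeroObject T]
    [HasShift T ℤ] [∀ n : ℤ, (shiftFunctor T n).Additive] [Pretriangulated T]
    [MonoidalCategory T] [SymmetricCategory T] [TensorTriangulated T] [MonoidalClosed T]
    [HasCoproducts.{0} T] [HasBinaryBiproducts T]
  {S : EvenSpheres T} {F : SpaceFunctor T} (e : F.S.obj CCF ≅ S.L)

section

variable {R : T} [MonObj R] [IsCommMonObj R] (o : Orientation (thK e R))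

/-- the orientation of the theory of `R ⊗ PS` -/
def oP : Orientation (thK e (R ⊗ S.PS)) := (thKHom e (inlM R S.PS)).push o

/-- the orientation of the theory of a square zero extension of `R ⊗ PS` -/
def oB {Z : T} (M : ModStr (R ⊗ S.PS) Z) : Orientation (thK e (Sqz M)) :=
  (thKHom e (Sqz.inl M)).push (oP e o)

theorem law_oB {Z : T} (M : ModStr (R ⊗ S.PS) Z) :
    (oB e o M).law = (oP e o).law.map (iota e M) := law_push _ _

theorem exists_tau {p i : ℕ} {w : ℤ} (a : S.S w ⟶ R)
    (ha : coefK e R (vv p i o.law) = HRing.of S R w a) :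
    ∃ τ : ((thK e (R ⊗ S.PS)).A)ˣ, vv p i (oP e o).law = lowA e (sharp a) * τ := by
  obtain ⟨t, ht⟩ := (coefK_bijective e (R ⊗ S.PS)).2
    (HRing.of S (R ⊗ S.PS) w (S.inPS w ≫ inrM R S.PS))
  obtain ⟨t', ht'⟩ := (coefK_bijective e (R ⊗ S.PS)).2
    (HRing.of S (R ⊗ S.PS) (-w) (S.inPS (-w) ≫ inrM R S.PS))
  have h1 : t * t' = 1 := by
    apply (coefK_bijective e (R ⊗ S.PS)).1
    rw [map_mul, ht, ht', of_mul_of (add_neg_cancel w), gmul_tau, map_one]
    exact of_one
  refine ⟨⟨t, t', h1, by rw [mul_comm]; exact h1⟩, ?_⟩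
  have h2 : lowA e (sharp a) = (thKHom e (inlM R S.PS)).mapA (vv p i o.law) * t' := by
    apply (coefK_bijective e (R ⊗ S.PS)).1
    rw [map_mul, coefK_mapA, ha, HRing.map_of, ht', coefK_lowA, of_mul_of (add_neg_cancel w),
      zero_inv_sharp]
  have h3 : vv p i (oP e o).law = (thKHom e (inlM R S.PS)).mapA (vv p i o.law) := by
    unfold oP
    rw [law_push, vv_map]
  rw [h3, h2]
  change _ = _ * t' * t
  rw [_root_.mul_assoc, mul_comm t', h1, _root_.mul_one]

variable {p : ℕ} [Fact p.Prime] {w : ℕ → ℤ} {a : ∀ i, S.S (w i) ⟶ R}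
  (ha : ∀ i, coefK e R (vv p i o.law) = HRing.of S R (w i) (a i))

/-- The input from geometry: the class `m [p^k](z)^d` of the projective space vanishes on the lens
space of the cyclic group of order `p^(k+1)`, for all `m` in the square zero ideal. -/
def HTop {Z : T} (M : ModStr (R ⊗ S.PS) Z) (p k d : ℕ) : Prop :=
  ∀ (m : KK e M) (N : ℕ),
    (thK e (Sqz M)).mapAlg (lensPrC (p ^ (k + 1)) (Fin N))
      ((m : (thK e (Sqz M)).A) •
        Vale.Agent.P251.Q.nev1 ((oB e o M).z (Fin N)) (multSeries (oB e o M).law.toFG (p ^ k)) ^ d) = 0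

include ha in
/-- the estimate for one module -/
theorem blue_module {Z : T} (M : ModStr (R ⊗ S.PS) Z) (n k L d : ℕ)
    (hI : ∀ i < n, M.sm (sharp (a i)) ^ L = 0) (hv : IsNilpotent (M.sm (sharp (a n))))
    (hu : IsIso (M.smul (sharp (a (n + 1))))) (hTop : HTop e o M p k d) (z : 𝟙_ T ⟶ Z) :
    z ≫ (M.sm (sharp (a n)) ^ (d * (n * L + 1)) : End Z) = 0 := by
  choose τ hτ using fun i => exists_tau e o (p := p) (i := i) (a i) (ha i)
  have key : ∀ i, vv p i (oB e o M).law =
      iota e M (lowA e (sharp (a i))) * iota e M (τ i : (thK e (R ⊗ S.PS)).A) := by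
    intro i
    rw [law_oB, vv_map, hτ, map_mul]
  have hun : ∀ i, IsUnit (iota e M (τ i : (thK e (R ⊗ S.PS)).A)) :=
    fun i => (τ i).isUnit.map (iota e M)
  have hpow : ∀ i t, (∀ m : KK e M, iota e M (lowA e (sharp (a i))) ^ t • m = 0) →
      ∀ m : KK e M, vv p i (oB e o M).law ^ t • m = 0 := by
    intro i t h m
    rw [key, mul_pow, mul_comm, mul_smul, h m, smul_zero]
  obtain ⟨m, hm⟩ := exists_tst e M z
  have h1 := blue_ring (oB e o M) (rho e M) (iota e M) (rho_iota e M) (oP e o).law (law_oB e o M) p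
    n k L d (fun i hi => hpow i L (lowA_pow_smul_eq_zero e M (hI i hi)))
    (by
      obtain ⟨t, ht⟩ := hv
      exact ⟨t, hpow n t (lowA_pow_smul_eq_zero e M ht)⟩)
    (by
      have h2 := lowA_smul_bijective e M hu
      obtain ⟨u, hu'⟩ := hun (n + 1)
      have h3 : Function.Bijective fun m : KK e M =>
          iota e M (τ (n + 1) : (thK e (R ⊗ S.PS)).A) • m := by
        rw [← hu']
        exact MulAction.bijective u
      have h4 : (fun m : KK e M => vv p (n + 1) (oB e o M).law • m) =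
          (fun m : KK e M => iota e M (lowA e (sharp (a (n + 1)))) • m) ∘
            fun m : KK e M => iota e M (τ (n + 1) : (thK e (R ⊗ S.PS)).A) • m := by
        funext m
        rw [key, mul_smul]
        rfl
      rw [h4]
      exact h2.comp h3)
    (fun m N => lens_gysin (oB e o M) (p ^ (k + 1)) (Fin N) (hTop m N)) m
  rw [key, mul_pow, mul_comm, mul_smul] at h1
  have h2 : iota e M (lowA e (sharp (a n))) ^ (d * (n * L + 1)) • m = 0 := by
    obtain ⟨u, hu'⟩ := hun n
    rw [← hu', ← Units.val_pow_eq_pow_val] at h1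
    have h3 := (MulAction.bijective (u ^ (d * (n * L + 1)))).1 (a₁ :=
      iota e M (lowA e (sharp (a n))) ^ (d * (n * L + 1)) • m) (a₂ := 0)
    exact h3 (h1.trans (smul_zero _).symm)
  have h3 := congrArg (fun m : KK e M => zc e M 0 (m : (thK e (Sqz M)).A)) h2
  have h4 : zc e M 0 (m : (thK e (Sqz M)).A) ≫
      (M.sm (sharp (a n)) ^ (d * (n * L + 1)) : End Z) = 0 := by
    rw [← zc_lowA_pow_mul]
    exact h3.trans (map_zero _)
  rw [hm, Category.assoc] at h4
  rw [← cancel_epi S.zero.inv, h4, comp_zero]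

theorem ihom_sm_pow {P N : T} [MonObj P] (A : T) (M : ModStr P N) (x : 𝟙_ T ⟶ P) (t : ℕ) :
    ((ihomMod A M).sm x ^ t : End ((ihom A).obj N)) = (ihom A).map (M.sm x ^ t : End N) := by
  have h : (ihomMod A M).sm x = (ihom A).mapEnd N (M.sm x) := ihomMod_smul A M x
  rw [h, ← map_pow]
  rfl

theorem ihom_map_zero (A : T) {N N' : T} : (ihom A).map (0 : N ⟶ N') = 0 := by
  apply MonoidalClosed.uncurry_injective
  rw [MonoidalClosed.uncurry_ihom_map, comp_zero]
  have : MonoidalClosed.uncurry (0 : (ihom A).obj N ⟶ (ihom A).obj N') =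
      A ◁ 0 ≫ evA A N' := uncurry_eq' _
  rw [this, MonoidalPreadditive.whiskerLeft_zero, zero_comp]

include ha in
/-- **The blue shift statement from the geometric input.** -/
theorem blue_of_hTop {n k d : ℕ} {X Y : T}
    (h : ∀ (N : T) (M : ModStr (R ⊗ S.PS) N), Acyclic N X →
      HTop e o (ihomMod (N ⊗ Y) (M.tensorRight Y)) p k d) :
    H125.Blue (P := R ⊗ S.PS) (fun i => sharp (a i)) n X Y := by
  intro L
  refine ⟨d * (n * L + 1), fun N M hC hX => ?_⟩
  obtain ⟨hI, ⟨t, ht⟩, hu⟩ := hC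
  have hpow : ∀ i t, M.sm (sharp (a i)) ^ t = 0 →
      (ihomMod (N ⊗ Y) (M.tensorRight Y)).sm (sharp (a i)) ^ t = 0 := by
    intro i t h0
    rw [ihom_sm_pow, sm_tensorRight, ← map_pow, h0]
    refine (congrArg (ihom (N ⊗ Y)).map ?_).trans (ihom_map_zero _)
    exact MonoidalPreadditive.zero_whiskerRight
  have h1 := blue_module e o ha (ihomMod (N ⊗ Y) (M.tensorRight Y)) n k L d
    (fun i hi => hpow i L (hI i hi)) ⟨t, hpow n t ht⟩
    (by
      rw [ihomMod_smul, ModStr.tensorRight_smul]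
      infer_instance)
    (h N M hX) (MonoidalClosed.curry (ρ_ (N ⊗ Y)).hom)
  rw [ihom_sm_pow, ← MonoidalClosed.curry_natural_right] at h1
  have h2 : (ρ_ (N ⊗ Y)).hom ≫
      ((M.tensorRight Y).sm (sharp (a n)) ^ (d * (n * L + 1)) : End (N ⊗ Y)) = 0 := by
    apply MonoidalClosed.curry_injective
    rw [h1]
    apply MonoidalClosed.uncurry_injective
    rw [MonoidalClosed.uncurry_curry]
    refine (uncurry_eq' _).trans ?_
    rw [MonoidalPreadditive.whiskerLeft_zero, zero_comp]
  exact (cancel_epi (ρ_ (N ⊗ Y)).hom).1 (h2.trans comp_zero.symm)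

end

end Vale.Agent.P241.H891
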