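import Vale.Agent.P241.H891.Cyclic
import Vale.Agent.P241.H402.G3
import Vale.Agent.P241.H125.UBInst

/-!
# P241, block UB: the upper bound at heights `n ≥ 1`

`forces_pos` : `Forces S K H n r` for `n ≥ 1` and `r ≥ ℓ(G, H)`, for every finite `p`-group `G`.
-/

open CategoryTheory MonoidalCategory Limits Pretriangulated MonObj
open Vale.Agent.P251.St Vale.Agent.P251.St.SHCat Vale.Agent.P241.St Vale.Agent.P241.Final
open Vale.Agent.P251.I Vale.Agent.P251.T Vale.Agent.P251.M Vale.Agent.P251.S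
open Vale.Agent.P241.H14

set_option linter.unusedSectionVars false

noncomputable section

namespace Vale.Agent.P241.H891

variable {T : SHCat} {S : Susp T}

/-- the cyclic case at one height -/
theorem cyclicAt (X : Ctx S) {p : ℕ} [Fact p.Prime] {K : ℕ → RingA T}
    (hK : ∀ i, IsMoravaK S p i (K i)) {n : ℕ} (hn : n ≠ 0)
    (C : Type) [Group C] [Finite C] [IsCyclic C] (hC : IsPGroup p C) :
    Forces S K (⊥ : Subgroup C) n 1 := by
  intro Y hY hac
  have fU : Vale.Agent.P251.St.FC Y.und := H486.fc_und hY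
  have fT : Vale.Agent.P251.St.FC (Y.fix ⊤) := H486.fixFC _ Y hY ⊤
  have fB : Vale.Agent.P251.St.FC (Y.fix ⊥) := H486.fixFC _ Y hY ⊥
  refine H125.f4_of_pos X hK hn (Z := Y.und) (Y := Y.fix ⊤) fT ?_
    (H14.acyclic_of_homeo S fB fU (undHomeo Y ⊥ rfl) hac)
  refine blue_cyclic X (H402.f1 X) C hC Y hY n fun N hcard hN => ?_
  have htop : (⊤ : Subgroup C) = ⊥ := by
    have : Subsingleton C := (Nat.card_eq_one_iff_unique.1 hcard).1
    exact Subsingleton.elim _ _
  exact isZero_of_acyclic (H14.acyclic_of_homeo S fU fT (undHomeo Y ⊤ htop).symm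
    (acyclic_of_isZero hN))

/-- **The upper bound at heights `n ≥ 1`.** -/
theorem forces_pos (X : Ctx S) {p : ℕ} [Fact p.Prime] {K : ℕ → RingA T}
    (hK : ∀ i, IsMoravaK S p i (K i)) {G : Type} [Group G] [Finite G] (hG : IsPGroup p G)
    (H : Subgroup G) {n : ℕ} (hn : n ≠ 0) {r : ℕ} (hr : St.ell H ≤ r) : Forces S K H n r := by
  intro X' hX h
  obtain ⟨c, hc0, hcs, hc⟩ := hasCyclicChain_mono (hasCyclicChain_ell hG H) hr
  have key : ∀ i, i ≤ r → Vale.Agent.P251.St.Acyclic (K (n + (r - i))).obj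
      (S.obj (X'.fix (c i))) := by
    intro i
    induction i with
    | zero =>
      intro _
      rw [hc0]
      exact h
    | succ i ih =>
      intro hi
      obtain ⟨h3, h4, h5⟩ := hc i (by omega)
      obtain ⟨Y, hY, ⟨e1⟩, ⟨e2⟩⟩ := H14.subQuot G X' hX (c i) (c (i + 1)) h3
      have hp : IsPGroup p (c (i + 1) ⧸ (c i).subgroupOf (c (i + 1))) :=
        (hG.to_subgroup (c (i + 1))).to_quotient _
      have h6 := ih (by omega)
      rw [show n + (r - i) = n + (r - (i + 1)) + 1 by omega] at h6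
      refine acyclic_of_homeo S (H486.fixFC _ Y hY _) (H486.fixFC _ X' hX _) e2 ?_
      exact cyclicAt X hK (n := n + (r - (i + 1))) (by omega) _ hp Y hY
        (acyclic_of_homeo S (H486.fixFC _ X' hX _) (H486.fixFC _ Y hY _) e1 h6)
  have h7 := key r le_rfl
  rw [hcs, Nat.sub_self] at h7
  exact h7

/-- **`r_n(G, H) = ℓ(G, H)` at heights `n ≥ 1`**, from the lower bound. -/
theorem smith_pos {p : ℕ} [Fact p.Prime] (hL : LowerBound S p) {K : ℕ → RingA T}
    (hK : ∀ i, IsMoravaK S p i (K i)) (G : Type) [Group G] [Finite G] (hG : IsPGroup p G)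
    (H : Subgroup G) (n : ℕ) (hn : n ≠ 0) :
    loss S K H n = St.ell H ∧ ∀ r, Forces S K H n r ↔ St.ell H ≤ r := by
  obtain ⟨X⟩ := Ctx.nonempty S
  have h : ∀ r, Forces S K H n r ↔ St.ell H ≤ r := fun r =>
    ⟨fun hr => hL.le hK hG hr, fun hr => forces_pos X hK hG H hn hr⟩
  refine ⟨?_, h⟩
  have h1 : {r | Forces S K H n r} = Set.Ici (St.ell H) := Set.ext h
  change sInf {r | Forces S K H n r} = _
  rw [h1]
  exact csInf_Ici

end Vale.Agent.P241.H891
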