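import Vale.Agent.P241.H891.SqzCoef
import Vale.Agent.P251.M.BGlueB
import Vale.Agent.P251.M.LimTheory
import Vale.Agent.P093.N2.ChiDual

/-!
# P241, block UB: the square zero ideal and maps killed by the module

* `map_smul_KK` : `E.map f (m • t) = 0` for `m` in the square zero ideal of `E = thK e (Sqz M)` if
  `Z ◁ Σ^∞ f = 0`.
-/

open CategoryTheory MonoidalCategory Limits Pretriangulated MonObj
open Vale.Agent.P251.G Vale.Agent.P251.G.LC Vale.Agent.P251.I Vale.Agent.P251.T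
open Vale.Agent.P251.M Vale.Agent.P251.S Vale.Agent.P251.F Vale.Agent.P251.M.EvenSpheres
open Vale.Agent.P241.H588

universe v u

set_option linter.unusedSectionVars false

noncomputable section

namespace Vale.Agent.P241.H891

variable {T : Type u} [Category.{v} T] [Preadditive T] [HasZeroObject T]
    [HasShift T ℤ] [∀ n : ℤ, (shiftFunctor T n).Additive] [Pretriangulated T] [IsTriangulated T]
    [MonoidalCategory T] [SymmetricCategory T] [TensorTriangulated T] [MonoidalClosed T]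
    [HasCoproducts.{0} T] [HasProducts.{0} T] [StableCat T] [HasBinaryBiproducts T]
  {S : EvenSpheres T} {F : SpaceFunctor T} (e : F.S.obj CCF ≅ S.L)

variable {P Z : T} [MonObj P] [IsCommMonObj P] (M : ModStr P Z)

theorem whiskerLeft_tensor_eq_zero {Z W A B : T} (g : A ⟶ B) (h : Z ◁ g = 0) :
    (Z ⊗ W) ◁ g = 0 := by
  have h1 : (Z ⊗ W) ◁ g = (α_ Z W A).hom ≫ Z ◁ ((β_ W A).hom ≫ g ▷ W ≫ (β_ W B).inv) ≫
      (α_ Z W B).inv := by
    have h2 : (β_ W A).hom ≫ g ▷ W ≫ (β_ W B).inv = W ◁ g := by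
      rw [← BraidedCategory.braiding_naturality_right_assoc, Iso.hom_inv_id, Category.comp_id]
    rw [h2]
    simp
  have h3 : Z ◁ (g ▷ W) = 0 := by
    have : Z ◁ (g ▷ W) = (α_ Z A W).inv ≫ (Z ◁ g) ▷ W ≫ (α_ Z B W).hom := by simp
    rw [this, h, MonoidalPreadditive.zero_whiskerRight, zero_comp, comp_zero]
  rw [h1, MonoidalCategory.whiskerLeft_comp, MonoidalCategory.whiskerLeft_comp, h3]
  simp

/-- the total class of an element of the ideal -/
theorem sharpTot_KK (m : KK e M) : ∃ x' : 𝟙_ T ⟶ Z ⊗ S.PS,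
    sharpTot S (Sqz M) (coefK e (Sqz M) (m : (thK e (Sqz M)).A)) = x' ≫ Sqz.inr M ▷ S.PS := by
  have h0 : sharpTot S (Sqz M) (coefK e (Sqz M) (m : (thK e (Sqz M)).A)) ≫
      Sqz.fst M ▷ S.PS = 0 := by
    have h1 := sharpHom_map (E := S) (Sqz.fst M) (coefK e (Sqz M) (m : (thK e (Sqz M)).A))
    have h2 : HRing.map (E := S) (Sqz.fst M) (coefK e (Sqz M) (m : (thK e (Sqz M)).A)) = 0 := by
      refine DFinsupp.ext fun w => ?_
      exact (map_apply _ _ _).trans ((mem_KK_iff e M _).1 m.2 w)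
    rw [h2, map_zero] at h1
    exact h1
  refine ⟨sharpTot S (Sqz M) (coefK e (Sqz M) (m : (thK e (Sqz M)).A)) ≫ Sqz.snd M ▷ S.PS, ?_⟩
  have h3 : (Sqz.fst M ≫ Sqz.inl M + Sqz.snd M ≫ Sqz.inr M) ▷ S.PS = 𝟙 _ := by
    rw [Sqz.total, id_whiskerRight]
  rw [MonoidalPreadditive.add_whiskerRight, comp_whiskerRight, comp_whiskerRight] at h3
  calc _ = sharpTot S (Sqz M) (coefK e (Sqz M) (m : (thK e (Sqz M)).A)) ≫
        (Sqz.fst M ▷ S.PS ≫ Sqz.inl M ▷ S.PS + Sqz.snd M ▷ S.PS ≫ Sqz.inr M ▷ S.PS) := by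
        rw [h3, Category.comp_id]
    _ = _ := by
        rw [Preadditive.comp_add, ← Category.assoc, h0, zero_comp, zero_add, ← Category.assoc]

theorem tU_injective (K : T) [MonObj K] [IsCommMonObj K] (Q : FCat) :
    Function.Injective (tU e K Q) := by
  intro a b hab
  exact uev_inj Q.property (tK_injective (isCpt_space F (cofTriangles F) Q.property) hab)

/-- **Classes of the ideal vanish under maps which are killed by the module.** -/
theorem map_smul_KK {Q Q' : FCat} (f : Q ⟶ Q')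
    (hf : Z ◁ F.S.map f = 0) (m : KK e M) (t : (thK e (Sqz M)).U Q'.obj) :
    (thK e (Sqz M)).map f.hom ((m : (thK e (Sqz M)).A) • t) = 0 := by
  refine tU_injective e (Sqz M) Q ?_
  rw [map_zero, tU_map, tU_smul]
  obtain ⟨x', hx'⟩ := sharpTot_KK e M m
  rw [hx', ← Category.assoc, smul_self_eq]
  have h1 : (x' ≫ Sqz.inr M ▷ S.PS ⊗ₘ F.S.map f ≫ tU e (Sqz M) Q' t) =
      x' ▷ _ ≫ (Z ⊗ S.PS) ◁ F.S.map f ≫ (Sqz.inr M ▷ S.PS ⊗ₘ tU e (Sqz M) Q' t) := by
    rw [MonoidalCategory.tensorHom_def, comp_whiskerRight, MonoidalCategory.whiskerLeft_comp,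
      MonoidalCategory.tensorHom_def, Category.assoc, whisker_exchange_assoc]
  rw [h1, whiskerLeft_tensor_eq_zero _ hf]
  simp

theorem ihom_whiskerLeft_eq_zero (A W : T) {D D' L : T} [ExactPairing L D'] (g : D ⟶ D')
    (h : W ◁ g = 0) : ((ihom A).obj W) ◁ g = 0 := by
  have h0 : (tensorRightHomEquiv ((ihom A).obj W ⊗ D) L D' ((ihom A).obj W)).symm
      (((ihom A).obj W) ◁ g) = 0 := by
    apply MonoidalClosed.uncurry_injective
    have e0 : MonoidalClosed.uncurry (0 : ((ihom A).obj W ⊗ D) ⊗ L ⟶ (ihom A).obj W) = 0 := by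
      refine (uncurry_eq' _).trans ?_
      rw [MonoidalPreadditive.whiskerLeft_zero, zero_comp]
    rw [e0]
    refine (uncurry_eq' _).trans ?_
    change A ◁ ((((ihom A).obj W) ◁ g) ▷ L ≫ (α_ _ _ _).hom ≫ _ ◁ ε_ L D' ≫ (ρ_ _).hom) ≫
      evA A W = 0
    have h1 : A ◁ ((((ihom A).obj W) ◁ g) ▷ L ≫ (α_ _ _ _).hom ≫ _ ◁ ε_ L D' ≫ (ρ_ _).hom) =
        (A ◁ (α_ _ _ _).hom ≫ (α_ A ((ihom A).obj W) (D ⊗ L)).inv) ≫
          ((A ⊗ (ihom A).obj W) ◁ (g ▷ L ≫ ε_ L D')) ≫ (ρ_ _).hom := by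
      monoidal
    have h2 : ((A ⊗ (ihom A).obj W) ◁ (g ▷ L ≫ ε_ L D')) ≫ (ρ_ _).hom ≫ evA A W =
        evA A W ▷ _ ≫ (W ◁ (g ▷ L ≫ ε_ L D')) ≫ (ρ_ _).hom := by
      rw [← rightUnitor_naturality, whisker_exchange_assoc]
    have h3 : W ◁ (g ▷ L) = 0 := by
      have : W ◁ (g ▷ L) = (α_ W D L).inv ≫ (W ◁ g) ▷ L ≫ (α_ W D' L).hom := by simp
      rw [this, h, MonoidalPreadditive.zero_whiskerRight, zero_comp, comp_zero]
    simp only [h1, Category.assoc]
    rw [h2, MonoidalCategory.whiskerLeft_comp, h3]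
    simp
  have h1 := (tensorRightHomEquiv ((ihom A).obj W ⊗ D) L D' ((ihom A).obj W)).symm_apply_eq.1 h0
  rw [h1]
  simp [tensorRightHomEquiv]

theorem whiskerLeft_tensor_eq_zero' {N W A B : T} (g : A ⟶ B) (h : N ◁ (g ▷ W) = 0) :
    (N ⊗ W) ◁ g = 0 := by
  have h1 : (N ⊗ W) ◁ g = (α_ N W A).hom ≫ N ◁ ((β_ W A).hom ≫ g ▷ W ≫ (β_ W B).inv) ≫
      (α_ N W B).inv := by
    have h2 : (β_ W A).hom ≫ g ▷ W ≫ (β_ W B).inv = W ◁ g := by
      rw [← BraidedCategory.braiding_naturality_right_assoc, Iso.hom_inv_id, Category.comp_id]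
    rw [h2]
    simp
  rw [h1, MonoidalCategory.whiskerLeft_comp, MonoidalCategory.whiskerLeft_comp, h]
  simp

/-- the form with the internal hom of `N ⊗ Y` -/
theorem map_smul_ihom {N : T} (M : ModStr P N) (A Y : T) {Q Q' : FCat} (f : Q ⟶ Q')
    (hf : N ◁ (F.S.map f ▷ Y) = 0)
    (m : KK e (ihomMod A (M.tensorRight Y))) (t : (thK e (Sqz (ihomMod A (M.tensorRight Y)))).U Q'.obj) :
    (thK e (Sqz (ihomMod A (M.tensorRight Y)))).map f.hom
      ((m : (thK e (Sqz (ihomMod A (M.tensorRight Y)))).A) • t) = 0 := by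
  obtain ⟨L, ⟨_⟩⟩ := Vale.Agent.P093.N2.Dz.space F Q'
  exact map_smul_KK e _ f (ihom_whiskerLeft_eq_zero A (N ⊗ Y) (L := L) (F.S.map f)
    (whiskerLeft_tensor_eq_zero' _ hf)) m t

end Vale.Agent.P241.H891
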